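import Mathlib

/-!
# Helper file for P015: Gaussian integers along a line

Coordinates of Gaussian integers along and across a direction `v`, norms of the cells
`N v + τ`, and the residue classes of `N` on which a split prime divides the norm of a cell.
-/

namespace Vale.Agent.Helper15.P015

open GaussianInt

/-- A Gaussian prime whose norm is divisible by the rational prime `p` has norm at most `p ^ 2`. -/
theorem not_prime_of_dvd_norm (z : GaussianInt) (p : ℕ) (hp : p.Prime)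
    (hpn : (p : ℤ) ∣ z.norm) (hlt : (p : ℤ) ^ 2 < z.norm) : ¬ Prime z := by
  intro hprime
  have key : ∀ q : GaussianInt, ¬ IsUnit q → q ∣ z → q ∣ (p : GaussianInt) → False := by
    intro q hq hqz hqp
    obtain ⟨u, hu⟩ := hqz
    have hunit : IsUnit u := by
      rcases hprime.irreducible.isUnit_or_isUnit hu with h | h
      · exact absurd h hq
      · exact h
    have hdvd : z ∣ (p : GaussianInt) := by
      obtain ⟨u', hu'⟩ := hunit.exists_right_inv
      have : q = z * u' := by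
        rw [hu, mul_assoc, hu', mul_one]
      exact Dvd.dvd.trans ⟨u', this⟩ hqp
    obtain ⟨t, ht⟩ := hdvd
    have hn : ((p : GaussianInt)).norm = z.norm * t.norm := by
      conv_lhs => rw [ht]
      exact Zsqrtd.norm_mul _ _
    rw [Zsqrtd.norm_natCast] at hn
    have ht0 : 0 ≤ t.norm := GaussianInt.norm_nonneg _
    have hp0 : (0 : ℤ) < p := by exact_mod_cast hp.pos
    rcases eq_or_lt_of_le ht0 with h0 | hpos
    · rw [← h0, mul_zero] at hn
      nlinarith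
    · nlinarith
  have hpnu : ¬ IsUnit (p : GaussianInt) := by
    rw [Zsqrtd.isUnit_iff_norm_isUnit, Zsqrtd.norm_natCast, Int.isUnit_iff_natAbs_eq]
    have := hp.two_le
    intro h
    have h2 : ((p : ℤ) * p).natAbs = p * p := by
      rw [Int.natAbs_mul]; simp
    rw [h2] at h
    nlinarith
  have hp0 : (p : GaussianInt) ≠ 0 := by
    have := hp.pos
    intro h
    have h3 : ((p : GaussianInt)).norm = 0 := by rw [h]; simp
    rw [Zsqrtd.norm_natCast] at h3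
    have : (p : ℤ) = 0 := by nlinarith
    omega
  obtain ⟨π, hπirr, hπp⟩ := WfDvdMonoid.exists_irreducible_factor hpnu hp0
  have hπprime : Prime π := hπirr.prime
  have hpz : (p : GaussianInt) ∣ z * star z := by
    rw [← Zsqrtd.norm_eq_mul_conj]
    obtain ⟨k, hk⟩ := hpn
    exact ⟨(k : GaussianInt), by rw [hk]; push_cast; ring⟩
  rcases hπprime.dvd_or_dvd (hπp.trans hpz) with h | h
  · exact key π hπirr.not_isUnit h hπp
  · have h1 : star π ∣ z := by
      obtain ⟨t, ht⟩ := h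
      exact ⟨star t, by rw [← star_mul', ← ht, star_star]⟩
    have h2 : star π ∣ (p : GaussianInt) := by
      obtain ⟨t, ht⟩ := hπp
      refine ⟨star t, ?_⟩
      rw [← star_mul', ← ht]
      ext <;> simp
    have h3 : ¬ IsUnit (star π) := by
      rw [Zsqrtd.isUnit_iff_norm_isUnit, Zsqrtd.norm_conj, ← Zsqrtd.isUnit_iff_norm_isUnit]
      exact hπirr.not_isUnit
    exact key (star π) h3 h1 h2

/-- Coordinate along the direction `v` (scaled by the norm of `v`). -/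
def X (v w : GaussianInt) : ℤ := w.re * v.re + w.im * v.im

/-- Coordinate across the direction `v` (scaled by the norm of `v`). -/
def Y (v w : GaussianInt) : ℤ := w.im * v.re - w.re * v.im

theorem X_sq_add_Y_sq (v w : GaussianInt) : X v w ^ 2 + Y v w ^ 2 = w.norm * v.norm := by
  simp only [X, Y, Zsqrtd.norm_def]
  ring

theorem X_cell (v τ : GaussianInt) (N : ℕ) :
    X v ((N : GaussianInt) * v + τ) = N * v.norm + X v τ := by
  simp [X, Zsqrtd.norm_def]
  ring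

theorem Y_cell (v τ : GaussianInt) (N : ℕ) : Y v ((N : GaussianInt) * v + τ) = Y v τ := by
  simp [Y]
  ring

theorem X_neg (v w : GaussianInt) : X (-v) w = -X v w := by
  simp [X]
  ring

theorem step_X (v w w' : GaussianInt) (D : ℝ) (h : ‖(w' : ℂ) - (w : ℂ)‖ ≤ D) :
    |(X v w' : ℝ) - (X v w : ℝ)| ≤ ‖(v : ℂ)‖ * D := by
  have h1 : (X v w' : ℝ) - (X v w : ℝ) = (((w' : ℂ) - (w : ℂ)) * (starRingEnd ℂ) (v : ℂ)).re := by
    simp [X, Complex.mul_re]
    ring
  rw [h1]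
  calc |(((w' : ℂ) - (w : ℂ)) * (starRingEnd ℂ) (v : ℂ)).re|
      ≤ ‖((w' : ℂ) - (w : ℂ)) * (starRingEnd ℂ) (v : ℂ)‖ := Complex.abs_re_le_norm _
    _ = ‖(w' : ℂ) - (w : ℂ)‖ * ‖(v : ℂ)‖ := by rw [norm_mul, RCLike.norm_conj]
    _ ≤ ‖(v : ℂ)‖ * D := by
        rw [mul_comm]
        exact mul_le_mul_of_nonneg_left h (_root_.norm_nonneg _)

theorem dist_Y (a v w : GaussianInt) (t : ℝ) :
    |(Y v w : ℝ) - (Y v a : ℝ)| ≤ ‖(v : ℂ)‖ * ‖(w : ℂ) - ((a : ℂ) + t * (v : ℂ))‖ := by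
  have h1 : (Y v w : ℝ) - (Y v a : ℝ)
      = (((w : ℂ) - ((a : ℂ) + t * (v : ℂ))) * (starRingEnd ℂ) (v : ℂ)).im := by
    simp [Y, Complex.mul_im]
    ring
  rw [h1]
  calc |(((w : ℂ) - ((a : ℂ) + t * (v : ℂ))) * (starRingEnd ℂ) (v : ℂ)).im|
      ≤ ‖((w : ℂ) - ((a : ℂ) + t * (v : ℂ))) * (starRingEnd ℂ) (v : ℂ)‖ :=
        Complex.abs_im_le_norm _
    _ = ‖(v : ℂ)‖ * ‖(w : ℂ) - ((a : ℂ) + t * (v : ℂ))‖ := by
        rw [norm_mul, RCLike.norm_conj, mul_comm]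

theorem norm_sq_eq (w : GaussianInt) : ‖(w : ℂ)‖ ^ 2 = (w.norm : ℝ) := by
  rw [GaussianInt.intCast_real_norm, Complex.normSq_eq_norm_sq]

theorem norm_le_X_add_Y (v w : GaussianInt) (hv : v ≠ 0) :
    ‖(w : ℂ)‖ ≤ |(X v w : ℝ)| + |(Y v w : ℝ)| := by
  have hvn : 1 ≤ v.norm := GaussianInt.norm_pos.mpr hv
  have hwn : 0 ≤ w.norm := GaussianInt.norm_nonneg w
  have h1 : w.norm ≤ X v w ^ 2 + Y v w ^ 2 := by
    rw [X_sq_add_Y_sq]
    nlinarith
  have h2 : (w.norm : ℝ) ≤ (X v w : ℝ) ^ 2 + (Y v w : ℝ) ^ 2 := by exact_mod_cast h1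
  have h3 : ‖(w : ℂ)‖ ^ 2 ≤ (|(X v w : ℝ)| + |(Y v w : ℝ)|) ^ 2 := by
    rw [norm_sq_eq]
    have h4 : (|(X v w : ℝ)| + |(Y v w : ℝ)|) ^ 2
        = (X v w : ℝ) ^ 2 + (Y v w : ℝ) ^ 2 + 2 * (|(X v w : ℝ)| * |(Y v w : ℝ)|) := by
      rw [add_sq, sq_abs, sq_abs]
      ring
    rw [h4]
    have : 0 ≤ |(X v w : ℝ)| * |(Y v w : ℝ)| := by positivity
    linarith
  exact (pow_le_pow_iff_left₀ (_root_.norm_nonneg _) (by positivity) (by norm_num)).mp h3

theorem norm_v_le (v : GaussianInt) (hv : v ≠ 0) :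
    1 ≤ ‖(v : ℂ)‖ ∧ ‖(v : ℂ)‖ ≤ (v.norm : ℝ) := by
  have hvn : 1 ≤ v.norm := GaussianInt.norm_pos.mpr hv
  have h1 : (1 : ℝ) ≤ (v.norm : ℝ) := by exact_mod_cast hvn
  rw [← norm_sq_eq] at h1 ⊢
  have h0 : 0 ≤ ‖(v : ℂ)‖ := _root_.norm_nonneg _
  constructor
  · nlinarith
  · nlinarith

theorem XY_inj (v : GaussianInt) (hv : v ≠ 0) (τ τ' : GaussianInt) (hX : X v τ = X v τ')
    (hY : Y v τ = Y v τ') : τ = τ' := by
  have hvn : 1 ≤ v.norm := GaussianInt.norm_pos.mpr hv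
  have h1 : X v (τ - τ') = 0 := by
    have : X v (τ - τ') = X v τ - X v τ' := by
      simp [X]
      ring
    rw [this, hX, sub_self]
  have h2 : Y v (τ - τ') = 0 := by
    have : Y v (τ - τ') = Y v τ - Y v τ' := by
      simp [Y]
      ring
    rw [this, hY, sub_self]
  have h3 := X_sq_add_Y_sq v (τ - τ')
  rw [h1, h2] at h3
  have h4 : (τ - τ').norm = 0 := by
    have h5 := GaussianInt.norm_nonneg (τ - τ')
    nlinarith
  by_contra hne
  have h6 : 0 < (τ - τ').norm := GaussianInt.norm_pos.mpr (sub_ne_zero.mpr hne)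
  omega

theorem cell_norm_mul (v τ : GaussianInt) (M : ℕ) :
    ((M : GaussianInt) * v + τ).norm * v.norm = (M * v.norm + X v τ) ^ 2 + (Y v τ) ^ 2 := by
  rw [← X_sq_add_Y_sq, X_cell, Y_cell]

theorem cell_norm_gt_sq (v τ : GaussianInt) (hv : 1 ≤ v.norm) (N : ℕ) (hX : 0 < X v τ) :
    (N : ℤ) ^ 2 < ((N : GaussianInt) * v + τ).norm := by
  have h2 := cell_norm_mul v τ N
  have hN0 : (0 : ℤ) ≤ N := Nat.cast_nonneg N
  by_contra hcon
  rw [not_lt] at hcon
  have h3 : ((N : GaussianInt) * v + τ).norm * v.norm ≤ (N : ℤ) ^ 2 * v.norm :=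
    mul_le_mul_of_nonneg_right hcon (by linarith)
  have h6 : 0 ≤ (N : ℤ) * v.norm := mul_nonneg hN0 (by linarith)
  have h4 : ((N : ℤ) * v.norm) ^ 2 < (N * v.norm + X v τ) ^ 2 := by nlinarith
  have h5 : (N : ℤ) ^ 2 * v.norm ≤ ((N : ℤ) * v.norm) ^ 2 := by
    have : ((N : ℤ) * v.norm) ^ 2 = (N : ℤ) ^ 2 * v.norm * v.norm := by ring
    rw [this]
    have : 0 ≤ (N : ℤ) ^ 2 * v.norm := by positivity
    nlinarith
  nlinarith [sq_nonneg (Y v τ)]

theorem toComplex_ne_zero (w : GaussianInt) (hw : w ≠ 0) : (w : ℂ) ≠ 0 := by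
  intro h
  exact hw (GaussianInt.toComplex_eq_zero.mp h)

theorem abs_Y_le (a v w : GaussianInt) (Ya : ℕ) (hYa : (Ya : ℤ) = |Y v a|) (B : ℝ)
    (h : |(Y v w : ℝ) - (Y v a : ℝ)| ≤ B) : |(Y v w : ℝ)| ≤ Ya + B := by
  have h1 : |(Y v w : ℝ)| ≤ |(Y v a : ℝ)| + |(Y v w : ℝ) - (Y v a : ℝ)| := by
    have := abs_add_le (Y v a : ℝ) ((Y v w : ℝ) - (Y v a : ℝ))
    simpa using this
  have h2 : |(Y v a : ℝ)| = Ya := by
    have : ((Ya : ℤ) : ℝ) = ((|Y v a| : ℤ) : ℝ) := by rw [hYa]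
    push_cast at this
    linarith
  linarith

theorem one_le_norm_of_ne_zero (w : GaussianInt) (hw : w ≠ 0) : 1 ≤ ‖(w : ℂ)‖ := by
  have h1 : 1 ≤ w.norm := GaussianInt.norm_pos.mpr hw
  have h2 : (1 : ℝ) ≤ (w.norm : ℝ) := by exact_mod_cast h1
  rw [← norm_sq_eq] at h2
  nlinarith [_root_.norm_nonneg (w : ℂ)]

theorem exists_nat_ge (x y z : ℝ) :
    ∃ h : ℕ, 1 ≤ h ∧ x ≤ (h : ℝ) ∧ y ≤ (h : ℝ) ∧ z < (h : ℝ) := by
  refine ⟨⌈x⌉₊ + ⌈y⌉₊ + ⌈z⌉₊ + 1, by omega, ?_, ?_, ?_⟩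
  all_goals
    push_cast
    have h1 := Nat.le_ceil x
    have h2 := Nat.le_ceil y
    have h3 := Nat.le_ceil z
    have h4 : (0 : ℝ) ≤ ⌈x⌉₊ := Nat.cast_nonneg _
    have h5 : (0 : ℝ) ≤ ⌈y⌉₊ := Nat.cast_nonneg _
    have h6 : (0 : ℝ) ≤ ⌈z⌉₊ := Nat.cast_nonneg _
    linarith

/-- For a square root `s` of `-1` modulo the prime `p`, the norm of `N v + τ` is divisible by
`p` whenever `N` lies in an explicit residue class. -/
theorem kill_root (v : GaussianInt) (p : ℕ) (hp : p.Prime) (s : ZMod p) (hs : -1 = s * s)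
    (τ : GaussianInt) (N : ℕ)
    (hN : ((N : ZMod p)) * ((v.re : ZMod p) + s * v.im) + ((τ.re : ZMod p) + s * τ.im) = 0) :
    (p : ℤ) ∣ ((N : GaussianInt) * v + τ).norm := by
  have hfact : Fact p.Prime := Fact.mk hp
  rw [← ZMod.intCast_zmod_eq_zero_iff_dvd]
  have h2 : ((((N : GaussianInt) * v + τ).norm : ℤ) : ZMod p)
      = ((N : ZMod p) * v.re + τ.re) ^ 2 + ((N : ZMod p) * v.im + τ.im) ^ 2 := by
    rw [Zsqrtd.norm_def]
    simp
    ring
  rw [h2]
  have hx : ((N : ZMod p) * v.re + τ.re) = -s * ((N : ZMod p) * v.im + τ.im) := by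
    linear_combination hN
  rw [hx]
  linear_combination (-(((N : ZMod p) * v.im + τ.im) ^ 2)) * hs

/-- For a prime `p ≡ 1 (mod 4)` not dividing the norm of `v`, and any `τ`, there are two residue
classes of `N` modulo `p` on which `p` divides the norm of `N v + τ`; they are distinct unless
`p` divides the transversal coordinate of `τ`. -/
theorem exists_kill2 (v : GaussianInt) (p : ℕ) (hp : p.Prime) (hp4 : p % 4 = 1)
    (hpv : ¬ (p : ℤ) ∣ v.norm) (τ : GaussianInt) :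
    ∃ r₁ r₂ : ℕ, r₁ < p ∧ r₂ < p ∧
      (∀ N : ℕ, (N % p = r₁ ∨ N % p = r₂) → (p : ℤ) ∣ ((N : GaussianInt) * v + τ).norm) ∧
      (¬ (p : ℤ) ∣ Y v τ → r₁ ≠ r₂) := by
  have hfact : Fact p.Prime := Fact.mk hp
  obtain ⟨s, hs⟩ : IsSquare (-1 : ZMod p) := ZMod.exists_sq_eq_neg_one_iff.mpr (by omega)
  have hs' : -1 = (-s) * (-s) := by rw [neg_mul_neg]; exact hs
  have hnorm : ((v.norm : ℤ) : ZMod p)
      = ((v.re : ZMod p) + s * v.im) * ((v.re : ZMod p) + (-s) * v.im) := by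
    rw [Zsqrtd.norm_def]
    push_cast
    linear_combination (-((v.im : ZMod p) * (v.im : ZMod p))) * hs
  have hnorm0 : ((v.norm : ℤ) : ZMod p) ≠ 0 := by
    intro h
    exact hpv ((ZMod.intCast_zmod_eq_zero_iff_dvd _ p).mp h)
  have hA1 : ((v.re : ZMod p) + s * v.im) ≠ 0 := by
    intro h
    rw [h, zero_mul] at hnorm
    exact hnorm0 hnorm
  have hA2 : ((v.re : ZMod p) + (-s) * v.im) ≠ 0 := by
    intro h
    rw [h, mul_zero] at hnorm
    exact hnorm0 hnorm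
  have hcast : ∀ (c : ZMod p) (N : ℕ), N % p = c.val → (N : ZMod p) = c := by
    intro c N hN
    rw [← ZMod.natCast_mod, hN, ZMod.natCast_zmod_val]
  refine ⟨(-((τ.re : ZMod p) + s * τ.im) / ((v.re : ZMod p) + s * v.im)).val,
    (-((τ.re : ZMod p) + (-s) * τ.im) / ((v.re : ZMod p) + (-s) * v.im)).val,
    ZMod.val_lt _, ZMod.val_lt _, ?_, ?_⟩
  · intro N hN
    rcases hN with hN | hN
    · apply kill_root v p hp s hs τ N
      rw [hcast _ N hN, div_mul_cancel₀ _ hA1]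
      ring
    · apply kill_root v p hp (-s) hs' τ N
      rw [hcast _ N hN, div_mul_cancel₀ _ hA2]
      ring
  · intro hY hr
    apply hY
    have hc := ZMod.val_injective p hr
    rw [neg_div, neg_div, neg_inj, div_eq_div_iff hA1 hA2] at hc
    have h2s : (2 : ZMod p) * s * ((Y v τ : ℤ) : ZMod p) = 0 := by
      unfold Y
      push_cast
      linear_combination hc
    have hs0 : s ≠ 0 := by
      rintro rfl
      rw [mul_zero] at hs
      exact neg_ne_zero.mpr one_ne_zero hs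
    have h20 : (2 : ZMod p) ≠ 0 := by
      intro h
      have h3 : ((2 : ℕ) : ZMod p) = 0 := by exact_mod_cast h
      rw [ZMod.natCast_eq_zero_iff] at h3
      have := Nat.le_of_dvd (by norm_num) h3
      have := hp.two_le
      omega
    rcases mul_eq_zero.mp h2s with h | h
    · rcases mul_eq_zero.mp h with h | h
      · exact absurd h h20
      · exact absurd h hs0
    · exact (ZMod.intCast_zmod_eq_zero_iff_dvd _ p).mp h

end Vale.Agent.Helper15.P015
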