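import Mathlib

/-!
# Helper file for P015: primes congruent to 1 modulo 4

From the Dirichlet series bounds behind Dirichlet's theorem: a sharp lower bound for the sum of
the reciprocals of the primes `p ≡ 1 (mod 4)` up to `2 ^ k`, the resulting bound for the
products of `1 - 2 / p`, and the existence of infinitely many dyadic blocks containing many
such primes.
-/

namespace Vale.Agent.Helper15.P015

open ArithmeticFunction ArithmeticFunction.vonMangoldt

/-- Key real inequality behind the telescoping argument. -/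
theorem rpow_diff (n : ℕ) (hn : 1 ≤ n) (y δ : ℝ) :
    δ * Real.log n / (n : ℝ) ^ (y + δ) ≤ 1 / (n : ℝ) ^ y - 1 / (n : ℝ) ^ (y + δ) := by
  have hn0 : (0 : ℝ) < n := by exact_mod_cast hn
  have h1 : (n : ℝ) ^ (y + δ) = (n : ℝ) ^ y * (n : ℝ) ^ δ := Real.rpow_add hn0 y δ
  have h2 : 1 + δ * Real.log n ≤ (n : ℝ) ^ δ := by
    rw [Real.rpow_def_of_pos hn0]
    have := Real.add_one_le_exp (Real.log n * δ)
    linarith
  have hy : 0 < (n : ℝ) ^ y := Real.rpow_pos_of_pos hn0 y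
  have hd : 0 < (n : ℝ) ^ δ := Real.rpow_pos_of_pos hn0 δ
  have h3 : 1 / (n : ℝ) ^ y - 1 / ((n : ℝ) ^ y * (n : ℝ) ^ δ)
      = ((n : ℝ) ^ δ - 1) / ((n : ℝ) ^ y * (n : ℝ) ^ δ) := by
    field_simp
  rw [h1, h3]
  apply div_le_div_of_nonneg_right _ (mul_pos hy hd).le
  linarith

/-- The exponents `1 + 1 / (n + 1)`. -/
noncomputable def xh (n : ℕ) : ℝ := 1 + 1 / ((n : ℝ) + 1)

/-- The step `xh n - xh (n + 1)`. -/
noncomputable def dh (n : ℕ) : ℝ := 1 / (((n : ℝ) + 1) * ((n : ℝ) + 2))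

theorem xh_gt (n : ℕ) : 1 < xh n := by
  unfold xh
  have : (0 : ℝ) < 1 / ((n : ℝ) + 1) := by positivity
  linarith

theorem xh_le (n : ℕ) : xh n ≤ 2 := by
  unfold xh
  have h0 : (0 : ℝ) ≤ n := Nat.cast_nonneg n
  have : 1 / ((n : ℝ) + 1) ≤ 1 := by
    rw [div_le_one (by linarith)]
    linarith
  linarith

theorem xh_sub_one (n : ℕ) : xh n - 1 = 1 / ((n : ℝ) + 1) := by
  unfold xh
  ring

theorem xh_succ (n : ℕ) : xh n = xh (n + 1) + dh n := by
  unfold xh dh
  have h0 : (0 : ℝ) ≤ n := Nat.cast_nonneg n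
  push_cast
  field_simp
  ring

theorem dh_pos (n : ℕ) : 0 < dh n := by
  unfold dh
  positivity

theorem sum_dh (J : ℕ) : ∑ n ∈ Finset.range J, dh n = 1 - 1 / ((J : ℝ) + 1) := by
  induction J with
  | zero => simp
  | succ J ih =>
    rw [Finset.sum_range_succ, ih]
    unfold dh
    have h0 : (0 : ℝ) ≤ J := Nat.cast_nonneg J
    push_cast
    field_simp
    ring

theorem sum_half (J : ℕ) :
    Real.log ((J : ℝ) + 2) - 1 ≤ ∑ n ∈ Finset.range J, 1 / ((n : ℝ) + 2) := by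
  have h := log_add_one_le_harmonic (J + 1)
  have h2 : ((harmonic (J + 1) : ℚ) : ℝ) = 1 + ∑ n ∈ Finset.range J, 1 / ((n : ℝ) + 2) := by
    unfold harmonic
    rw [Finset.sum_range_succ']
    push_cast
    rw [add_comm]
    congr 1
    · norm_num
    · apply Finset.sum_congr rfl
      intro n _
      rw [one_div]
      congr 1
      ring
  rw [h2] at h
  have h3 : (((J + 1 + 1 : ℕ)) : ℝ) = (J : ℝ) + 2 := by push_cast; ring
  rw [h3] at h
  linarith

/-- Telescoped termwise bound. -/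
theorem telescope (m : ℕ) (hm : 1 ≤ m) (J : ℕ) :
    ∑ n ∈ Finset.range J, dh n * Real.log m / (m : ℝ) ^ (xh n)
      ≤ 1 / (m : ℝ) ^ (xh J) - 1 / (m : ℝ) ^ (xh 0) := by
  induction J with
  | zero => simp
  | succ J ih =>
    rw [Finset.sum_range_succ]
    have h := rpow_diff m hm (xh (J + 1)) (dh J)
    rw [← xh_succ] at h
    linarith

open Complex in
/-- Two-sided control of the Dirichlet series of the von Mangoldt function restricted to the
residue class `1` modulo `4`, near `1`. -/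
theorem residue_bounds :
    ∃ C : ℝ, 0 ≤ C ∧ ∀ x : ℝ, 1 < x → x ≤ 2 →
      |∑' n : ℕ, residueClass (1 : ZMod 4) n / (n : ℝ) ^ x - (1 / 2) / (x - 1)| ≤ C := by
  have hne : NeZero (4 : ℕ) := ⟨by norm_num⟩
  have ha : IsUnit (1 : ZMod 4) := isUnit_one
  have htot : (Nat.totient 4 : ℝ)⁻¹ = 1 / 2 := by
    have : Nat.totient 4 = 2 := by decide
    rw [this]
    norm_num
  have H : ∀ x : ℝ, 1 < x →
      ∑' n, residueClass (1 : ZMod 4) n / (n : ℝ) ^ x =
        (LFunctionResidueClassAux (1 : ZMod 4) x).re + (Nat.totient 4 : ℝ)⁻¹ / (x - 1) := by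
    intro x hx
    refine ofReal_injective ?_
    simp only [ofReal_tsum, ofReal_div, ofReal_cpow (Nat.cast_nonneg _), ofReal_natCast,
      ofReal_add, ofReal_inv, ofReal_sub, ofReal_one]
    simp_rw [← LFunctionResidueClassAux_real ha hx,
      eqOn_LFunctionResidueClassAux ha <| Set.mem_ofPred.mpr (ofReal_re x ▸ hx), sub_add_cancel,
      LSeries, LSeries.term]
    refine tsum_congr fun n => ?_
    split_ifs with hn
    · simp only [hn, residueClass_apply_zero, ofReal_zero, zero_div]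
    · rfl
  have hcont : ContinuousOn (fun x : ℝ => (LFunctionResidueClassAux (1 : ZMod 4) x).re)
      (Set.Icc 1 2) :=
    continuous_re.continuousOn.comp (t := Set.univ)
      (continuousOn_LFunctionResidueClassAux (1 : ZMod 4))
      (fun ⦃x⦄ a => trivial) |>.comp continuous_ofReal.continuousOn fun x hx => by
        simpa only [Set.mem_ofPred_eq, ofReal_re] using hx.1
  obtain ⟨C1, hC1⟩ := bddAbove_def.mp <| IsCompact.bddAbove_image isCompact_Icc hcont
  obtain ⟨C2, hC2⟩ := bddBelow_def.mp <| IsCompact.bddBelow_image isCompact_Icc hcont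
  refine ⟨|C1| + |C2|, by positivity, fun x hx1 hx2 => ?_⟩
  rw [H x hx1, htot, add_sub_cancel_right]
  have h1 := hC1 (LFunctionResidueClassAux (1 : ZMod 4) x).re
    (Set.mem_image_of_mem (fun x : ℝ => (LFunctionResidueClassAux (1 : ZMod 4) x).re)
      ⟨hx1.le, hx2⟩)
  have h2 := hC2 (LFunctionResidueClassAux (1 : ZMod 4) x).re
    (Set.mem_image_of_mem (fun x : ℝ => (LFunctionResidueClassAux (1 : ZMod 4) x).re)
      ⟨hx1.le, hx2⟩)
  rw [abs_le]
  constructor
  · linarith [neg_abs_le C2, abs_nonneg C1]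
  · linarith [le_abs_self C1, abs_nonneg C2]

/-- The summand `p ^ (-x)` over primes `p ≡ 1 (mod 4)`. -/
noncomputable def gx (x : ℝ) (m : ℕ) : ℝ := if m.Prime ∧ m % 4 = 1 then 1 / (m : ℝ) ^ x else 0

theorem gx_nonneg (x : ℝ) (m : ℕ) : 0 ≤ gx x m := by
  unfold gx
  split_ifs
  · have := Real.rpow_nonneg (Nat.cast_nonneg m) x
    positivity
  · exact le_rfl

theorem gx_summable (x : ℝ) (hx : 1 < x) : Summable (gx x) := by
  refine Summable.of_nonneg_of_le (gx_nonneg x) (fun m => ?_) (Real.summable_one_div_nat_rpow.mpr hx)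
  unfold gx
  split_ifs
  · exact le_rfl
  · have := Real.rpow_nonneg (Nat.cast_nonneg m) x
    positivity

theorem rpow_ge_self (n : ℕ) (x : ℝ) (hx : 1 ≤ x) (hn : 1 ≤ n) : (n : ℝ) ≤ (n : ℝ) ^ x := by
  have h1 : (1 : ℝ) ≤ n := by exact_mod_cast hn
  calc (n : ℝ) = (n : ℝ) ^ (1 : ℝ) := (Real.rpow_one _).symm
    _ ≤ (n : ℝ) ^ x := Real.rpow_le_rpow_of_exponent_le h1 hx

/-- The prime part of the restricted von Mangoldt function. -/
noncomputable def fp (n : ℕ) : ℝ := if n.Prime then residueClass (1 : ZMod 4) n else 0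

theorem fp_nonneg (n : ℕ) : 0 ≤ fp n := by
  unfold fp
  split_ifs
  · exact residueClass_nonneg _ n
  · exact le_rfl

theorem fp_le_res (n : ℕ) : fp n ≤ residueClass (1 : ZMod 4) n := by
  unfold fp
  split_ifs
  · exact le_rfl
  · exact residueClass_nonneg _ n

theorem fp_le_log (n : ℕ) : fp n ≤ Real.log n := by
  unfold fp
  split_ifs with h
  · exact (residueClass_le _ n).trans vonMangoldt_le_log
  · exact Real.log_natCast_nonneg n

theorem natCast_zmod_four (n : ℕ) : (n : ZMod 4) = 1 ↔ n % 4 = 1 := by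
  have h6 : (n : ZMod 4) = 1 ↔ (n : ZMod 4) = ((1 : ℕ) : ZMod 4) := by simp
  rw [h6, ZMod.natCast_eq_natCast_iff']

theorem fp_eq_zero (n : ℕ) (h : ¬ (n.Prime ∧ n % 4 = 1)) : fp n = 0 := by
  unfold fp
  by_cases hp : n.Prime
  · rw [if_pos hp]
    have h4 : n % 4 ≠ 1 := fun h' => h ⟨hp, h'⟩
    have h5 : (n : ZMod 4) ≠ 1 := fun h' => h4 ((natCast_zmod_four n).mp h')
    simp [residueClass, h5]
  · rw [if_neg hp]

theorem fp_eq_log (n : ℕ) (h : n.Prime ∧ n % 4 = 1) : fp n = Real.log n := by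
  unfold fp
  rw [if_pos h.1]
  have h5 : (n : ZMod 4) = 1 := (natCast_zmod_four n).mpr h.2
  simp [residueClass, h5, vonMangoldt_apply_prime h.1]

theorem res_summable (x : ℝ) (hx : 1 < x) :
    Summable (fun n : ℕ => residueClass (1 : ZMod 4) n / (n : ℝ) ^ x) :=
  LSeries.summable_real_of_abscissaOfAbsConv_lt <|
    (abscissaOfAbsConv_residueClass_le_one (1 : ZMod 4)).trans_lt <| mod_cast hx

theorem fp_summable (x : ℝ) (hx : 1 < x) : Summable (fun n : ℕ => fp n / (n : ℝ) ^ x) := by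
  have hpos : ∀ n : ℕ, 0 ≤ (n : ℝ) ^ x := fun n => Real.rpow_nonneg (Nat.cast_nonneg n) x
  refine Summable.of_nonneg_of_le (fun n => div_nonneg (fp_nonneg n) (hpos n)) (fun n => ?_)
    (res_summable x hx)
  exact div_le_div_of_nonneg_right (fp_le_res n) (hpos n)

/-- Lower bound for the prime part of the Dirichlet series. -/
theorem fp_lower :
    ∃ C : ℝ, 0 ≤ C ∧ ∀ x : ℝ, 1 < x → x ≤ 2 →
      (1 / 2) / (x - 1) - C ≤ ∑' n : ℕ, fp n / (n : ℝ) ^ x := by
  obtain ⟨C, hC0, hC⟩ := residue_bounds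
  have hnp := summable_residueClass_non_primes_div (q := 4) (1 : ZMod 4)
  obtain ⟨g, hg⟩ : ∃ g : ℕ → ℝ, g = fun n => (if n.Prime then 0 else residueClass (1 : ZMod 4) n) :=
    ⟨_, rfl⟩
  have hnp' : Summable (fun n : ℕ => g n / (n : ℝ)) := by rw [hg]; exact hnp
  have hg0 : ∀ n, 0 ≤ g n := by
    intro n
    rw [hg]
    simp only
    split_ifs
    · exact le_rfl
    · exact residueClass_nonneg _ n
  have hfg : ∀ n, fp n + g n = residueClass (1 : ZMod 4) n := by
    intro n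
    rw [hg]
    unfold fp
    simp only
    split_ifs <;> simp
  have hC2 : 0 ≤ ∑' n : ℕ, g n / (n : ℝ) := tsum_nonneg fun n => div_nonneg (hg0 n) (Nat.cast_nonneg n)
  refine ⟨C + ∑' n : ℕ, g n / (n : ℝ), by linarith, fun x hx1 hx2 => ?_⟩
  have hpos : ∀ n : ℕ, 0 ≤ (n : ℝ) ^ x := fun n => Real.rpow_nonneg (Nat.cast_nonneg n) x
  have hsum := res_summable x hx1
  have hsf := fp_summable x hx1
  have hsg : Summable (fun n : ℕ => g n / (n : ℝ) ^ x) := by
    refine Summable.of_nonneg_of_le (fun n => div_nonneg (hg0 n) (hpos n)) (fun n => ?_) hsum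
    apply div_le_div_of_nonneg_right _ (hpos n)
    have := hfg n
    linarith [fp_nonneg n]
  have hgle : ∑' n : ℕ, g n / (n : ℝ) ^ x ≤ ∑' n : ℕ, g n / (n : ℝ) := by
    refine Summable.tsum_le_tsum (fun n => ?_) hsg hnp'
    rcases Nat.eq_zero_or_pos n with rfl | hn
    · have : g 0 = 0 := by rw [hg]; simp
      simp [this]
    · have hn0 : (0 : ℝ) < n := by exact_mod_cast hn
      exact div_le_div_of_nonneg_left (hg0 n) hn0 (rpow_ge_self n x hx1.le hn)
  have hadd : ∑' n : ℕ, residueClass (1 : ZMod 4) n / (n : ℝ) ^ x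
      = ∑' n : ℕ, fp n / (n : ℝ) ^ x + ∑' n : ℕ, g n / (n : ℝ) ^ x := by
    rw [← Summable.tsum_add hsf hsg]
    refine tsum_congr fun n => ?_
    rw [← add_div, hfg]
  have hlow := hC x hx1 hx2
  rw [abs_le] at hlow
  linarith [hlow.1]

/-- Smooth form of the lower bound for the sum of reciprocals of the primes `p ≡ 1 (mod 4)`,
with the sharp constant `1 / 2`. -/
theorem smooth_mertens :
    ∃ C : ℝ, 0 ≤ C ∧ ∀ J : ℕ, (1 / 2) * Real.log ((J : ℝ) + 2) - C ≤ ∑' m : ℕ, gx (xh J) m := by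
  obtain ⟨C, hC0, hC⟩ := fp_lower
  refine ⟨C + 1 / 2, by linarith, fun J => ?_⟩
  -- termwise bound
  have hB : ∀ m : ℕ, ∑ n ∈ Finset.range J, dh n * (fp m / (m : ℝ) ^ (xh n)) ≤ gx (xh J) m := by
    intro m
    by_cases hm : m.Prime ∧ m % 4 = 1
    · have hm1 : 1 ≤ m := hm.1.one_lt.le
      have hm0 : (0 : ℝ) < m := by exact_mod_cast hm1
      have h1 : ∑ n ∈ Finset.range J, dh n * (fp m / (m : ℝ) ^ (xh n))
          ≤ ∑ n ∈ Finset.range J, dh n * Real.log m / (m : ℝ) ^ (xh n) := by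
        apply Finset.sum_le_sum
        intro n _
        rw [mul_div_assoc]
        apply mul_le_mul_of_nonneg_left _ (dh_pos n).le
        exact div_le_div_of_nonneg_right (fp_le_log m) (Real.rpow_nonneg hm0.le _)
      have h2 := telescope m hm1 J
      have h4 : 0 ≤ 1 / (m : ℝ) ^ (xh 0) := by
        have := Real.rpow_nonneg hm0.le (xh 0)
        positivity
      have h5 : gx (xh J) m = 1 / (m : ℝ) ^ (xh J) := by
        unfold gx
        rw [if_pos hm]
      rw [h5]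
      linarith
    · have h0 : fp m = 0 := fp_eq_zero m hm
      have h5 : gx (xh J) m = 0 := by
        unfold gx
        rw [if_neg hm]
      rw [h5]
      simp [h0]
  have hsm : ∀ n ∈ Finset.range J,
      Summable (fun m : ℕ => dh n * (fp m / (m : ℝ) ^ (xh n))) := by
    intro n _
    exact (fp_summable (xh n) (xh_gt n)).mul_left _
  have h1 : ∑ n ∈ Finset.range J, dh n * ∑' m : ℕ, fp m / (m : ℝ) ^ (xh n)
      = ∑' m : ℕ, ∑ n ∈ Finset.range J, dh n * (fp m / (m : ℝ) ^ (xh n)) := by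
    rw [Summable.tsum_finsetSum hsm]
    refine Finset.sum_congr rfl fun n _ => ?_
    rw [tsum_mul_left]
  have h2 : ∑ n ∈ Finset.range J, dh n * ∑' m : ℕ, fp m / (m : ℝ) ^ (xh n)
      ≤ ∑' m : ℕ, gx (xh J) m := by
    rw [h1]
    exact Summable.tsum_le_tsum hB (summable_sum hsm) (gx_summable _ (xh_gt J))
  refine le_trans ?_ h2
  have h3 : ∀ n ∈ Finset.range J, (1 / 2) * (1 / ((n : ℝ) + 2)) - C * dh n
      ≤ dh n * ∑' m : ℕ, fp m / (m : ℝ) ^ (xh n) := by
    intro n _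
    have h4 := hC (xh n) (xh_gt n) (xh_le n)
    rw [xh_sub_one] at h4
    have h5 : dh n * ((1 / 2) / (1 / ((n : ℝ) + 1)) - C)
        ≤ dh n * ∑' m : ℕ, fp m / (m : ℝ) ^ (xh n) :=
      mul_le_mul_of_nonneg_left h4 (dh_pos n).le
    have h6 : dh n * ((1 / 2) / (1 / ((n : ℝ) + 1)) - C)
        = (1 / 2) * (1 / ((n : ℝ) + 2)) - C * dh n := by
      unfold dh
      have h0 : (0 : ℝ) ≤ n := Nat.cast_nonneg n
      field_simp
    linarith
  have h7 : ∑ n ∈ Finset.range J, ((1 / 2) * (1 / ((n : ℝ) + 2)) - C * dh n)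
      ≤ ∑ n ∈ Finset.range J, dh n * ∑' m : ℕ, fp m / (m : ℝ) ^ (xh n) := Finset.sum_le_sum h3
  refine le_trans ?_ h7
  rw [Finset.sum_sub_distrib, ← Finset.mul_sum, ← Finset.mul_sum, sum_dh]
  have h8 := sum_half J
  have h9 : (0 : ℝ) < 1 / ((J : ℝ) + 1) := by positivity
  have h10 : C * (1 - 1 / ((J : ℝ) + 1)) ≤ C := by nlinarith
  linarith

theorem res_eq_log (m : ℕ) (h : m.Prime ∧ m % 4 = 1) :
    residueClass (1 : ZMod 4) m = Real.log m := by
  have h5 : (m : ZMod 4) = 1 := (natCast_zmod_four m).mpr h.2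
  simp [residueClass, h5, vonMangoldt_apply_prime h.1]

/-- Sharp lower bound for the sum of the reciprocals of the primes `p ≡ 1 (mod 4)` up to
`2 ^ k`. -/
theorem mertens_sharp :
    ∃ C : ℝ, 0 ≤ C ∧ ∀ k : ℕ, 1 ≤ k → (1 / 2) * Real.log ((k : ℝ) + 1) - C
      ≤ ∑ p ∈ (Finset.range (2 ^ k + 1)).filter (fun p => p.Prime ∧ p % 4 = 1), 1 / (p : ℝ) := by
  obtain ⟨C1, hC10, hC1⟩ := smooth_mertens
  obtain ⟨C2, hC20, hC2⟩ := residue_bounds
  have hlog2 : 0 < Real.log 2 := Real.log_pos (by norm_num)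
  refine ⟨C1 + (1 / 2 + C2) / Real.log 2, by positivity, fun k hk => ?_⟩
  have hkr : (1 : ℝ) ≤ k := by exact_mod_cast hk
  have hk0 : (0 : ℝ) < k := by linarith
  have hJ : (((k - 1 : ℕ)) : ℝ) = (k : ℝ) - 1 := by
    rw [Nat.cast_sub hk]
    simp
  obtain ⟨x, hx⟩ : ∃ x : ℝ, x = xh (k - 1) := ⟨_, rfl⟩
  have hx1 : 1 < x := by rw [hx]; exact xh_gt _
  have hx2 : x ≤ 2 := by rw [hx]; exact xh_le _
  have hxk : x - 1 = 1 / (k : ℝ) := by
    rw [hx, xh_sub_one, hJ]
    congr 1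
    ring
  have hsm := hC1 (k - 1)
  rw [hJ, ← hx] at hsm
  have hsm' : (1 / 2) * Real.log ((k : ℝ) + 1) - C1 ≤ ∑' m : ℕ, gx x m := by
    have : (k : ℝ) - 1 + 2 = (k : ℝ) + 1 := by ring
    rw [this] at hsm
    exact hsm
  have hres := hC2 x hx1 hx2
  rw [abs_le, hxk] at hres
  have hres' : ∑' n : ℕ, residueClass (1 : ZMod 4) n / (n : ℝ) ^ x ≤ (k : ℝ) / 2 + C2 := by
    have : (1 / 2 : ℝ) / (1 / (k : ℝ)) = (k : ℝ) / 2 := by field_simp
    linarith [hres.2]
  obtain ⟨A, hA⟩ : ∃ A : ℕ → ℝ, A = fun m => if m ∈ Finset.range (2 ^ k + 1) then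
      (if m.Prime ∧ m % 4 = 1 then 1 / (m : ℝ) else 0) else 0 := ⟨_, rfl⟩
  have hAsum : ∑' m : ℕ, A m
      = ∑ p ∈ (Finset.range (2 ^ k + 1)).filter (fun p => p.Prime ∧ p % 4 = 1), 1 / (p : ℝ) := by
    rw [tsum_eq_sum (s := Finset.range (2 ^ k + 1))]
    · rw [Finset.sum_filter]
      apply Finset.sum_congr rfl
      intro m hm
      rw [hA]
      simp only [hm, if_true]
    · intro m hm
      rw [hA]
      simp only [hm, if_false]
  have hAsummable : Summable A := by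
    apply summable_of_ne_finset_zero (s := Finset.range (2 ^ k + 1))
    intro m hm
    rw [hA]
    simp only [hm, if_false]
  have hBsummable : Summable (fun m : ℕ => (1 / ((k : ℝ) * Real.log 2)) *
      (residueClass (1 : ZMod 4) m / (m : ℝ) ^ x)) := (res_summable x hx1).mul_left _
  have hterm : ∀ m : ℕ, gx x m ≤ A m + (1 / ((k : ℝ) * Real.log 2)) *
      (residueClass (1 : ZMod 4) m / (m : ℝ) ^ x) := by
    intro m
    have hB0 : 0 ≤ (1 / ((k : ℝ) * Real.log 2)) * (residueClass (1 : ZMod 4) m / (m : ℝ) ^ x) := by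
      have h1 := residueClass_nonneg (1 : ZMod 4) m
      have h2 := Real.rpow_nonneg (Nat.cast_nonneg m) x
      positivity
    have hA0 : 0 ≤ A m := by
      rw [hA]
      simp only
      split_ifs <;> positivity
    by_cases hm : m.Prime ∧ m % 4 = 1
    · have hm1 : 1 ≤ m := hm.1.one_lt.le
      have hm0 : (0 : ℝ) < m := by exact_mod_cast hm1
      have hg : gx x m = 1 / (m : ℝ) ^ x := by
        unfold gx
        rw [if_pos hm]
      have hpow : 0 < (m : ℝ) ^ x := Real.rpow_pos_of_pos hm0 x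
      by_cases hmk : m ∈ Finset.range (2 ^ k + 1)
      · have hAm : A m = 1 / (m : ℝ) := by
          rw [hA]
          simp only [hmk, if_true, hm, and_self]
        rw [hg, hAm]
        have := one_div_le_one_div_of_le hm0 (rpow_ge_self m x hx1.le hm1)
        linarith
      · have hmk' : 2 ^ k < m := by
          rw [Finset.mem_range] at hmk
          omega
        have hlogm : (k : ℝ) * Real.log 2 ≤ Real.log m := by
          have h1 : ((2 : ℝ) ^ k) ≤ (m : ℝ) := by exact_mod_cast hmk'.le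
          have h2 := Real.log_le_log (by positivity) h1
          rw [Real.log_pow] at h2
          exact h2
        rw [hg, res_eq_log m hm]
        have hkl : 0 < (k : ℝ) * Real.log 2 := by positivity
        have h3 : 1 / (m : ℝ) ^ x ≤ (1 / ((k : ℝ) * Real.log 2)) * (Real.log m / (m : ℝ) ^ x) := by
          rw [one_div_mul_eq_div, div_div, div_le_div_iff₀ hpow (by positivity)]
          nlinarith
        linarith
    · have hg : gx x m = 0 := by
        unfold gx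
        rw [if_neg hm]
      rw [hg]
      linarith
  have hle : ∑' m : ℕ, gx x m ≤ ∑' m : ℕ, (A m + (1 / ((k : ℝ) * Real.log 2)) *
      (residueClass (1 : ZMod 4) m / (m : ℝ) ^ x)) :=
    Summable.tsum_le_tsum hterm (gx_summable x hx1) (hAsummable.add hBsummable)
  rw [Summable.tsum_add hAsummable hBsummable, tsum_mul_left, hAsum] at hle
  have hkl : 0 < (k : ℝ) * Real.log 2 := by positivity
  have hB : (1 / ((k : ℝ) * Real.log 2)) * ∑' m : ℕ, residueClass (1 : ZMod 4) m / (m : ℝ) ^ x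
      ≤ (1 / 2 + C2) / Real.log 2 := by
    have h1 : (1 / ((k : ℝ) * Real.log 2)) * ∑' m : ℕ, residueClass (1 : ZMod 4) m / (m : ℝ) ^ x
        ≤ (1 / ((k : ℝ) * Real.log 2)) * ((k : ℝ) / 2 + C2) :=
      mul_le_mul_of_nonneg_left hres' (by positivity)
    have h2 : (1 / ((k : ℝ) * Real.log 2)) * ((k : ℝ) / 2 + C2)
        = (1 / 2 + C2 / k) / Real.log 2 := by
      field_simp
    have h3 : C2 / (k : ℝ) ≤ C2 := div_le_self hC20 hkr
    have h4 : (1 / 2 + C2 / (k : ℝ)) / Real.log 2 ≤ (1 / 2 + C2) / Real.log 2 :=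
      div_le_div_of_nonneg_right (by linarith) hlog2.le
    linarith
  linarith

/-- Stage-one primes: the primes `p ≡ 1 (mod 4)` with `V < p ≤ 2 ^ k`. -/
def F1 (V k : ℕ) : Finset ℕ :=
  (Finset.range (2 ^ k + 1)).filter (fun p => p.Prime ∧ p % 4 = 1 ∧ V < p)

/-- Stage-two primes: the primes `p ≡ 1 (mod 4)` with `2 ^ k < p ≤ 2 ^ (k + 1)`. -/
def F2 (k : ℕ) : Finset ℕ :=
  (Finset.Ico (2 ^ k + 1) (2 ^ (k + 1) + 1)).filter (fun p => p.Prime ∧ p % 4 = 1)

/-- The product of `1 - 2 / p` over the stage-one primes is of order `1 / k`. -/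
theorem prod_bound (V : ℕ) : ∃ Ac : ℕ, 1 ≤ Ac ∧ ∀ k : ℕ, 1 ≤ k →
    ∏ p ∈ F1 V k, (1 - 2 / (p : ℝ)) ≤ (Ac : ℝ) / ((k : ℝ) + 1) := by
  obtain ⟨C, hC0, hC⟩ := mertens_sharp
  refine ⟨⌈Real.exp (2 * C + 2 * V + 2)⌉₊, Nat.one_le_iff_ne_zero.mpr
    (Nat.ceil_pos.mpr (Real.exp_pos _)).ne', fun k hk => ?_⟩
  have hk0 : (0 : ℝ) < (k : ℝ) + 1 := by positivity
  have hE := hC k hk
  obtain ⟨f, hf⟩ : ∃ f : ℕ → ℝ, f = fun p : ℕ => 1 / (p : ℝ) := ⟨_, rfl⟩
  have hsplit := Finset.sum_filter_add_sum_filter_not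
    ((Finset.range (2 ^ k + 1)).filter (fun p => p.Prime ∧ p % 4 = 1)) (fun p => V < p) f
  have hF1 : ((Finset.range (2 ^ k + 1)).filter (fun p => p.Prime ∧ p % 4 = 1)).filter
      (fun p => V < p) = F1 V k := by
    unfold F1
    rw [Finset.filter_filter]
    apply Finset.filter_congr
    intro p _
    tauto
  rw [hF1] at hsplit
  have hsmall : ∑ p ∈ ((Finset.range (2 ^ k + 1)).filter (fun p => p.Prime ∧ p % 4 = 1)).filter
      (fun p => ¬ V < p), f p ≤ (V : ℝ) + 1 := by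
    have h1 : ∑ p ∈ ((Finset.range (2 ^ k + 1)).filter (fun p => p.Prime ∧ p % 4 = 1)).filter
        (fun p => ¬ V < p), f p ≤ ∑ p ∈ Finset.range (V + 1), (1 : ℝ) := by
      have h2 : ∑ p ∈ ((Finset.range (2 ^ k + 1)).filter (fun p => p.Prime ∧ p % 4 = 1)).filter
          (fun p => ¬ V < p), f p
          ≤ ∑ p ∈ ((Finset.range (2 ^ k + 1)).filter (fun p => p.Prime ∧ p % 4 = 1)).filter
          (fun p => ¬ V < p), (1 : ℝ) := by
        apply Finset.sum_le_sum
        intro p hp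
        rw [Finset.mem_filter, Finset.mem_filter] at hp
        rw [hf]
        have h3 : (1 : ℝ) ≤ p := by exact_mod_cast hp.1.2.1.one_lt.le
        simp only
        rw [div_le_one (by linarith)]
        exact h3
      refine h2.trans ?_
      apply Finset.sum_le_sum_of_subset_of_nonneg
      · intro p hp
        rw [Finset.mem_filter] at hp
        rw [Finset.mem_range]
        omega
      · intro p _ _
        exact zero_le_one
    rw [Finset.sum_const, Finset.card_range] at h1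
    simp only [nsmul_eq_mul, mul_one] at h1
    push_cast at h1
    exact h1
  have hsumF1 : (1 / 2) * Real.log ((k : ℝ) + 1) - C - V - 1 ≤ ∑ p ∈ F1 V k, 1 / (p : ℝ) := by
    have h4 : ∑ p ∈ F1 V k, f p = ∑ p ∈ F1 V k, 1 / (p : ℝ) := by rw [hf]
    have h5 : ∑ p ∈ (Finset.range (2 ^ k + 1)).filter (fun p => p.Prime ∧ p % 4 = 1), f p
        = ∑ p ∈ (Finset.range (2 ^ k + 1)).filter (fun p => p.Prime ∧ p % 4 = 1), 1 / (p : ℝ) := by
      rw [hf]
    linarith
  have hprod : ∏ p ∈ F1 V k, (1 - 2 / (p : ℝ)) ≤ ∏ p ∈ F1 V k, Real.exp (-(2 / (p : ℝ))) := by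
    apply Finset.prod_le_prod
    · intro p hp
      unfold F1 at hp
      rw [Finset.mem_filter] at hp
      have h1 : (2 : ℝ) ≤ p := by exact_mod_cast hp.2.1.two_le
      have h2 : 2 / (p : ℝ) ≤ 1 := by
        rw [div_le_one (by linarith)]
        exact h1
      linarith
    · intro p _
      exact Real.one_sub_le_exp_neg _
  refine hprod.trans ?_
  rw [← Real.exp_sum, Finset.sum_neg_distrib]
  have h6 : ∑ p ∈ F1 V k, 2 / (p : ℝ) = 2 * ∑ p ∈ F1 V k, 1 / (p : ℝ) := by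
    rw [Finset.mul_sum]
    apply Finset.sum_congr rfl
    intro p _
    ring
  rw [h6]
  have h7 : Real.exp (-(2 * ∑ p ∈ F1 V k, 1 / (p : ℝ)))
      ≤ Real.exp (2 * C + 2 * V + 2 - Real.log ((k : ℝ) + 1)) :=
    Real.exp_le_exp.mpr (by linarith)
  refine h7.trans ?_
  rw [Real.exp_sub, Real.exp_log hk0]
  exact div_le_div_of_nonneg_right (Nat.le_ceil _) hk0.le

theorem pow_rpow_comm (m : ℕ) (x : ℝ) : ((2 : ℝ) ^ m) ^ x = ((2 : ℝ) ^ x) ^ m := by
  rw [← Real.rpow_natCast, ← Real.rpow_mul (by norm_num), ← Real.rpow_natCast,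
    ← Real.rpow_mul (by norm_num), mul_comm]

/-- Bound for a dyadic block of the prime Dirichlet series. -/
theorem block_bound (x : ℝ) (hx : 1 ≤ x) (m : ℕ) :
    ∑ i ∈ Finset.Ico (2 ^ m + 1) (2 ^ (m + 1) + 1), fp i / (i : ℝ) ^ x
      ≤ ((F2 m).card : ℝ) * (((m : ℝ) + 1) * Real.log 2 / ((2 : ℝ) ^ m) ^ x) := by
  have h1 : ∑ i ∈ Finset.Ico (2 ^ m + 1) (2 ^ (m + 1) + 1), fp i / (i : ℝ) ^ x
      = ∑ i ∈ F2 m, fp i / (i : ℝ) ^ x := by
    unfold F2
    rw [Finset.sum_filter]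
    apply Finset.sum_congr rfl
    intro i _
    by_cases hi : i.Prime ∧ i % 4 = 1
    · rw [if_pos hi]
    · rw [if_neg hi, fp_eq_zero i hi, zero_div]
  rw [h1]
  have h2 : ∑ i ∈ F2 m, fp i / (i : ℝ) ^ x
      ≤ ∑ i ∈ F2 m, (((m : ℝ) + 1) * Real.log 2 / ((2 : ℝ) ^ m) ^ x) := by
    apply Finset.sum_le_sum
    intro i hi
    unfold F2 at hi
    rw [Finset.mem_filter, Finset.mem_Ico] at hi
    have hi1 : 2 ^ m < i := by omega
    have hi2 : i ≤ 2 ^ (m + 1) := by omega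
    have hi0 : (0 : ℝ) < i := by
      have : 0 < i := by omega
      exact_mod_cast this
    have hlog : fp i ≤ ((m : ℝ) + 1) * Real.log 2 := by
      refine (fp_le_log i).trans ?_
      have h3 : (i : ℝ) ≤ (2 : ℝ) ^ (m + 1) := by exact_mod_cast hi2
      have h4 := Real.log_le_log hi0 h3
      rw [Real.log_pow] at h4
      push_cast at h4
      exact h4
    have hpow : ((2 : ℝ) ^ m) ^ x ≤ (i : ℝ) ^ x := by
      apply Real.rpow_le_rpow (by positivity) _ (by linarith)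
      exact_mod_cast hi1.le
    have hpos : 0 < ((2 : ℝ) ^ m) ^ x := Real.rpow_pos_of_pos (by positivity) x
    have hlog0 : 0 ≤ ((m : ℝ) + 1) * Real.log 2 := by
      have := Real.log_pos (by norm_num : (1 : ℝ) < 2)
      positivity
    calc fp i / (i : ℝ) ^ x ≤ (((m : ℝ) + 1) * Real.log 2) / (i : ℝ) ^ x :=
          div_le_div_of_nonneg_right hlog (Real.rpow_nonneg hi0.le x)
      _ ≤ (((m : ℝ) + 1) * Real.log 2) / ((2 : ℝ) ^ m) ^ x :=
          div_le_div_of_nonneg_left hlog0 hpos hpow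
  refine h2.trans (le_of_eq ?_)
  rw [Finset.sum_const, nsmul_eq_mul]

theorem fp_div_le (i : ℕ) (x : ℝ) (hx : 1 ≤ x) : fp i / (i : ℝ) ^ x ≤ fp i / (i : ℝ) := by
  rcases Nat.eq_zero_or_pos i with rfl | hi
  · have : fp 0 = 0 := fp_eq_zero 0 (fun h => Nat.not_prime_zero h.1)
    simp [this]
  · have hi0 : (0 : ℝ) < i := by exact_mod_cast hi
    exact div_le_div_of_nonneg_left (fp_nonneg i) hi0 (rpow_ge_self i x hx hi)

/-- If the dyadic blocks contain few primes `p ≡ 1 (mod 4)`, the prime Dirichlet series is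
small. -/
theorem partial_bound (k₀ : ℕ)
    (hyp : ∀ k, k₀ ≤ k → 8 * ((k : ℝ) + 1) * ((F2 k).card : ℝ) < (2 : ℝ) ^ k) (x : ℝ)
    (hx1 : 1 ≤ x) :
    ∀ m, k₀ ≤ m → ∑ i ∈ Finset.range (2 ^ m + 1), fp i / (i : ℝ) ^ x
      ≤ (∑ i ∈ Finset.range (2 ^ k₀ + 1), fp i / (i : ℝ))
        + (Real.log 2 / 8) * ∑ j ∈ Finset.Ico k₀ m, (2 / (2 : ℝ) ^ x) ^ j := by
  intro m hm
  induction m, hm using Nat.le_induction with
  | base =>
    simp only [Finset.Ico_self, Finset.sum_empty, mul_zero, add_zero]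
    exact Finset.sum_le_sum fun i _ => fp_div_le i x hx1
  | succ m hm ih =>
    have hle : 2 ^ m + 1 ≤ 2 ^ (m + 1) + 1 := by
      have : 2 ^ m ≤ 2 ^ (m + 1) := Nat.pow_le_pow_right (by norm_num) (Nat.le_succ m)
      omega
    rw [← Finset.sum_range_add_sum_Ico _ hle, Finset.sum_Ico_succ_top hm, mul_add]
    have hb := block_bound x hx1 m
    have hh := hyp m hm
    have hlog2 : 0 < Real.log 2 := Real.log_pos (by norm_num)
    have hpos : 0 < ((2 : ℝ) ^ m) ^ x := Real.rpow_pos_of_pos (by positivity) x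
    have hm0 : (0 : ℝ) < (m : ℝ) + 1 := by positivity
    have h1 : ((F2 m).card : ℝ) * (((m : ℝ) + 1) * Real.log 2 / ((2 : ℝ) ^ m) ^ x)
        ≤ (Real.log 2 / 8) * (2 / (2 : ℝ) ^ x) ^ m := by
      rw [div_pow, ← pow_rpow_comm]
      have h2 : ((F2 m).card : ℝ) * (((m : ℝ) + 1) * Real.log 2 / ((2 : ℝ) ^ m) ^ x)
          = (((F2 m).card : ℝ) * ((m : ℝ) + 1)) * (Real.log 2 / ((2 : ℝ) ^ m) ^ x) := by ring
      have h3 : (Real.log 2 / 8) * ((2 : ℝ) ^ m / ((2 : ℝ) ^ m) ^ x)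
          = ((2 : ℝ) ^ m / 8) * (Real.log 2 / ((2 : ℝ) ^ m) ^ x) := by ring
      rw [h2, h3]
      apply mul_le_mul_of_nonneg_right _ (by positivity)
      linarith
    linarith

/-- Infinitely many dyadic blocks contain many primes `p ≡ 1 (mod 4)`. -/
theorem many_primes (k₀ : ℕ) :
    ∃ k, k₀ ≤ k ∧ (2 : ℝ) ^ k ≤ 8 * ((k : ℝ) + 1) * ((F2 k).card : ℝ) := by
  by_contra hcon
  have hyp : ∀ k, k₀ ≤ k → 8 * ((k : ℝ) + 1) * ((F2 k).card : ℝ) < (2 : ℝ) ^ k := by
    intro k hk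
    by_contra h
    exact hcon ⟨k, hk, not_lt.mp h⟩
  obtain ⟨C, hC0, hC⟩ := fp_lower
  obtain ⟨C0, hC0def⟩ : ∃ C0 : ℝ, C0 = ∑ i ∈ Finset.range (2 ^ k₀ + 1), fp i / (i : ℝ) := ⟨_, rfl⟩
  have hC00 : 0 ≤ C0 := by
    rw [hC0def]
    exact Finset.sum_nonneg fun i _ => div_nonneg (fp_nonneg i) (Nat.cast_nonneg i)
  obtain ⟨s, hs⟩ : ∃ s : ℝ, s = 1 / (4 * (C0 + C + 1)) := ⟨_, rfl⟩
  have hs0 : 0 < s := by rw [hs]; positivity
  have hs1 : s ≤ 1 / 4 := by
    rw [hs]
    apply one_div_le_one_div_of_le (by norm_num)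
    linarith
  have hx1 : 1 < 1 + s := by linarith
  have hx2 : 1 + s ≤ 2 := by linarith
  have hlog2 : 0 < Real.log 2 := Real.log_pos (by norm_num)
  have hlog2' : Real.log 2 ≤ 1 := by
    have := Real.log_two_lt_d9
    linarith
  obtain ⟨ρ, hρ⟩ : ∃ ρ : ℝ, ρ = 2 / (2 : ℝ) ^ (1 + s) := ⟨_, rfl⟩
  have hρexp : ρ = Real.exp (-(s * Real.log 2)) := by
    rw [hρ, Real.rpow_add (by norm_num), Real.rpow_one, Real.rpow_def_of_pos (by norm_num),
      Real.exp_neg]
    have : 0 < Real.exp (Real.log 2 * s) := Real.exp_pos _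
    rw [mul_comm s]
    field_simp
  have hρ0 : 0 ≤ ρ := by rw [hρexp]; exact (Real.exp_pos _).le
  have hu0 : 0 < s * Real.log 2 := by positivity
  have hu1 : s * Real.log 2 ≤ 1 := by nlinarith
  have hρle : ρ ≤ 1 / (1 + s * Real.log 2) := by
    rw [hρexp, Real.exp_neg, one_div]
    apply inv_anti₀ (by linarith)
    have := Real.add_one_le_exp (s * Real.log 2)
    linarith
  have h1ρ : s * Real.log 2 / 2 ≤ 1 - ρ := by
    have h1 : 1 - 1 / (1 + s * Real.log 2) = s * Real.log 2 / (1 + s * Real.log 2) := by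
      field_simp
      ring
    have h2 : s * Real.log 2 / 2 ≤ s * Real.log 2 / (1 + s * Real.log 2) :=
      div_le_div_of_nonneg_left hu0.le (by linarith) (by linarith)
    linarith
  have hρ1 : ρ < 1 := by linarith
  have hgeom : ∀ m, ∑ j ∈ Finset.Ico k₀ m, ρ ^ j ≤ 1 / (1 - ρ) := by
    intro m
    refine (geom_sum_Ico_le_of_lt_one hρ0 hρ1).trans ?_
    apply div_le_div_of_nonneg_right (pow_le_one₀ hρ0 hρ1.le) (by linarith)
  have hBd : ∀ n, ∑ i ∈ Finset.range n, fp i / (i : ℝ) ^ (1 + s)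
      ≤ C0 + (Real.log 2 / 8) * (1 / (1 - ρ)) := by
    intro n
    have hn : n ≤ 2 ^ (max n k₀) + 1 := by
      have h1 : n < 2 ^ n := Nat.lt_two_pow_self
      have h2 : 2 ^ n ≤ 2 ^ (max n k₀) := Nat.pow_le_pow_right (by norm_num) (le_max_left n k₀)
      omega
    have h3 : ∑ i ∈ Finset.range n, fp i / (i : ℝ) ^ (1 + s)
        ≤ ∑ i ∈ Finset.range (2 ^ (max n k₀) + 1), fp i / (i : ℝ) ^ (1 + s) := by
      apply Finset.sum_le_sum_of_subset_of_nonneg (Finset.range_subset_range.mpr hn)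
      intro i _ _
      exact div_nonneg (fp_nonneg i) (Real.rpow_nonneg (Nat.cast_nonneg i) _)
    have h4 := partial_bound k₀ hyp (1 + s) hx1.le (max n k₀) (le_max_right n k₀)
    rw [← hρ, ← hC0def] at h4
    have h5 := hgeom (max n k₀)
    have h6 : (Real.log 2 / 8) * ∑ j ∈ Finset.Ico k₀ (max n k₀), ρ ^ j
        ≤ (Real.log 2 / 8) * (1 / (1 - ρ)) := mul_le_mul_of_nonneg_left h5 (by positivity)
    linarith
  have htsum : ∑' n : ℕ, fp n / (n : ℝ) ^ (1 + s) ≤ C0 + (Real.log 2 / 8) * (1 / (1 - ρ)) :=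
    Real.tsum_le_of_sum_range_le
      (fun n => div_nonneg (fp_nonneg n) (Real.rpow_nonneg (Nat.cast_nonneg n) _)) hBd
  have hlow := hC (1 + s) hx1 hx2
  rw [add_sub_cancel_left] at hlow
  have h7 : (Real.log 2 / 8) * (1 / (1 - ρ)) ≤ 1 / (4 * s) := by
    have h8 : 1 / (1 - ρ) ≤ 1 / (s * Real.log 2 / 2) :=
      one_div_le_one_div_of_le (by positivity) h1ρ
    have h9 : (Real.log 2 / 8) * (1 / (1 - ρ)) ≤ (Real.log 2 / 8) * (1 / (s * Real.log 2 / 2)) :=
      mul_le_mul_of_nonneg_left h8 (by positivity)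
    have h10 : (Real.log 2 / 8) * (1 / (s * Real.log 2 / 2)) = 1 / (4 * s) := by
      field_simp
      ring
    linarith
  have h11 : (1 / 2 : ℝ) / s = 2 * (1 / (4 * s)) := by
    field_simp
    ring
  have h12 : 1 / (4 * s) = C0 + C + 1 := by
    rw [hs]
    field_simp
  linarith

/-- The sum over `range (2 ^ m + 1)` splits into dyadic blocks. -/
theorem sum_blocks (g : ℕ → ℝ) (m : ℕ) :
    ∑ i ∈ Finset.range (2 ^ m + 1), g i
      = ∑ i ∈ Finset.range 2, g i
        + ∑ j ∈ Finset.range m, ∑ i ∈ Finset.Ico (2 ^ j + 1) (2 ^ (j + 1) + 1), g i := by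
  induction m with
  | zero => simp
  | succ m ih =>
    have hle : 2 ^ m + 1 ≤ 2 ^ (m + 1) + 1 := by
      have : 2 ^ m ≤ 2 ^ (m + 1) := Nat.pow_le_pow_right (by norm_num) (Nat.le_succ m)
      omega
    rw [← Finset.sum_range_add_sum_Ico _ hle, ih,
      Finset.sum_range_succ (fun j => ∑ i ∈ Finset.Ico (2 ^ j + 1) (2 ^ (j + 1) + 1), g i) m,
      add_assoc]

/-- Chebyshev's bound: the sum of `log p` over the primes `p ≤ n` is at most `n log 4`. -/
theorem sum_log_primes_le (n : ℕ) :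
    ∑ i ∈ Finset.range (n + 1), (if i.Prime then Real.log i else 0) ≤ (n : ℝ) * Real.log 4 := by
  have h1 : ∑ i ∈ Finset.range (n + 1), (if i.Prime then Real.log i else 0)
      = Real.log (primorial n) := by
    unfold primorial
    rw [Nat.cast_prod, Real.log_prod, Finset.sum_filter]
    intro p hp
    have := (Finset.mem_filter.mp hp).2.pos
    positivity
  rw [h1]
  have h2 : (primorial n : ℝ) ≤ (4 : ℝ) ^ n := by exact_mod_cast primorial_le_four_pow n
  have h3 := Real.log_le_log (by exact_mod_cast primorial_pos n) h2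
  rw [Real.log_pow] at h3
  exact h3

theorem fp_le_lp (i : ℕ) : fp i ≤ (if i.Prime then Real.log i else 0) := by
  by_cases h : i.Prime
  · rw [if_pos h]
    exact fp_le_log i
  · rw [if_neg h, fp_eq_zero i (fun h' => h h'.1)]

theorem lp_nonneg (i : ℕ) : (0 : ℝ) ≤ (if i.Prime then Real.log i else 0) := by
  split_ifs
  · exact Real.log_natCast_nonneg i
  · exact le_rfl

/-- Chebyshev bound for a dyadic block of the prime Dirichlet series. -/
theorem block_cheb (x : ℝ) (hx : 1 ≤ x) (m : ℕ) :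
    ∑ i ∈ Finset.Ico (2 ^ m + 1) (2 ^ (m + 1) + 1), fp i / (i : ℝ) ^ x
      ≤ 2 * Real.log 4 * (2 / (2 : ℝ) ^ x) ^ m := by
  have hpos : 0 < ((2 : ℝ) ^ m) ^ x := Real.rpow_pos_of_pos (by positivity) x
  have h1 : ∑ i ∈ Finset.Ico (2 ^ m + 1) (2 ^ (m + 1) + 1), fp i / (i : ℝ) ^ x
      ≤ ∑ i ∈ (Finset.Ico (2 ^ m + 1) (2 ^ (m + 1) + 1) : Finset ℕ),
          (if i.Prime then Real.log (i : ℝ) else 0) / ((2 : ℝ) ^ m) ^ x := by
    apply Finset.sum_le_sum
    intro i hi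
    rw [Finset.mem_Ico] at hi
    have hi1 : 2 ^ m < i := by omega
    have hi0 : (0 : ℝ) < i := by
      have : 0 < i := by omega
      exact_mod_cast this
    have hpow : ((2 : ℝ) ^ m) ^ x ≤ (i : ℝ) ^ x := by
      apply Real.rpow_le_rpow (by positivity) _ (by linarith)
      exact_mod_cast hi1.le
    calc fp i / (i : ℝ) ^ x ≤ (if i.Prime then Real.log i else 0) / (i : ℝ) ^ x :=
          div_le_div_of_nonneg_right (fp_le_lp i) (Real.rpow_nonneg hi0.le x)
      _ ≤ (if i.Prime then Real.log i else 0) / ((2 : ℝ) ^ m) ^ x :=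
          div_le_div_of_nonneg_left (lp_nonneg i) hpos hpow
  rw [← Finset.sum_div] at h1
  have h2 : ∑ i ∈ (Finset.Ico (2 ^ m + 1) (2 ^ (m + 1) + 1) : Finset ℕ),
      (if i.Prime then Real.log (i : ℝ) else 0) ≤ ((2 ^ (m + 1) : ℕ) : ℝ) * Real.log 4 := by
    refine le_trans ?_ (sum_log_primes_le (2 ^ (m + 1)))
    apply Finset.sum_le_sum_of_subset_of_nonneg
    · intro i hi
      rw [Finset.mem_Ico] at hi
      rw [Finset.mem_range]
      omega
    · intro i _ _
      exact lp_nonneg i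
  have h3 : ((2 ^ (m + 1) : ℕ) : ℝ) * Real.log 4 / ((2 : ℝ) ^ m) ^ x
      = 2 * Real.log 4 * (2 / (2 : ℝ) ^ x) ^ m := by
    rw [div_pow, ← pow_rpow_comm]
    push_cast
    rw [pow_succ]
    ring
  exact (h1.trans (div_le_div_of_nonneg_right h2 hpos.le)).trans (le_of_eq h3)

/-- A dyadic block with few primes `p ≡ 1 (mod 4)` contributes little. -/
theorem block_hyp (x : ℝ) (hx : 1 ≤ x) (m : ℕ)
    (h : 8 * ((m : ℝ) + 1) * ((F2 m).card : ℝ) < (2 : ℝ) ^ m) :
    ∑ i ∈ Finset.Ico (2 ^ m + 1) (2 ^ (m + 1) + 1), fp i / (i : ℝ) ^ x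
      ≤ (Real.log 2 / 8) * (2 / (2 : ℝ) ^ x) ^ m := by
  refine (block_bound x hx m).trans ?_
  have hlog2 : 0 < Real.log 2 := Real.log_pos (by norm_num)
  have hpos : 0 < ((2 : ℝ) ^ m) ^ x := Real.rpow_pos_of_pos (by positivity) x
  rw [div_pow, ← pow_rpow_comm]
  have h2 : ((F2 m).card : ℝ) * (((m : ℝ) + 1) * Real.log 2 / ((2 : ℝ) ^ m) ^ x)
      = (((F2 m).card : ℝ) * ((m : ℝ) + 1)) * (Real.log 2 / ((2 : ℝ) ^ m) ^ x) := by ring
  have h3 : (Real.log 2 / 8) * ((2 : ℝ) ^ m / ((2 : ℝ) ^ m) ^ x)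
      = ((2 : ℝ) ^ m / 8) * (Real.log 2 / ((2 : ℝ) ^ m) ^ x) := by ring
  rw [h2, h3]
  apply mul_le_mul_of_nonneg_right _ (by positivity)
  linarith

/-- Supply of primes at every scale: for every large `k` some dyadic block `(2 ^ j, 2 ^ (j + 1)]`
with `k ≤ j < 128 k` contains many primes `p ≡ 1 (mod 4)`. -/
theorem supply : ∃ k₀ : ℕ, ∀ k : ℕ, k₀ ≤ k →
    ∃ j : ℕ, k ≤ j ∧ j < 128 * k ∧ (2 : ℝ) ^ j ≤ 8 * ((j : ℝ) + 1) * ((F2 j).card : ℝ) := by
  obtain ⟨C, hC0, hC⟩ := fp_lower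
  refine ⟨⌈2 * C⌉₊ + 1, fun k hk => ?_⟩
  by_contra hcon
  have hyp : ∀ j, k ≤ j → j < 128 * k →
      8 * ((j : ℝ) + 1) * ((F2 j).card : ℝ) < (2 : ℝ) ^ j := by
    intro j h1 h2
    by_contra h
    exact hcon ⟨j, h1, h2, not_lt.mp h⟩
  have hk1 : 1 ≤ k := by omega
  have hkr : (1 : ℝ) ≤ k := by exact_mod_cast hk1
  have hkC : 2 * C < k := by
    have h1 : 2 * C ≤ (⌈2 * C⌉₊ : ℝ) := Nat.le_ceil _
    have h2 : ((⌈2 * C⌉₊ + 1 : ℕ) : ℝ) ≤ k := by exact_mod_cast hk
    push_cast at h2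
    linarith
  obtain ⟨s, hs⟩ : ∃ s : ℝ, s = 1 / (16 * (k : ℝ)) := ⟨_, rfl⟩
  have hs0 : 0 < s := by rw [hs]; positivity
  have hs1 : s ≤ 1 / 16 := by
    rw [hs]
    apply one_div_le_one_div_of_le (by norm_num)
    linarith
  have hsinv : 1 / s = 16 * k := by
    rw [hs]
    field_simp
  have hx1 : 1 < 1 + s := by linarith
  have hx2 : 1 + s ≤ 2 := by linarith
  have hlog2 : 0 < Real.log 2 := Real.log_pos (by norm_num)
  have hlog2' : Real.log 2 ≤ 1 := by
    have := Real.log_two_lt_d9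
    linarith
  have hlog4 : Real.log 4 = 2 * Real.log 2 := by
    have : (4 : ℝ) = 2 ^ 2 := by norm_num
    rw [this, Real.log_pow]
    norm_num
  obtain ⟨ρ, hρ⟩ : ∃ ρ : ℝ, ρ = 2 / (2 : ℝ) ^ (1 + s) := ⟨_, rfl⟩
  have hρexp : ρ = Real.exp (-(s * Real.log 2)) := by
    rw [hρ, Real.rpow_add (by norm_num), Real.rpow_one, Real.rpow_def_of_pos (by norm_num),
      Real.exp_neg]
    have : 0 < Real.exp (Real.log 2 * s) := Real.exp_pos _
    rw [mul_comm s]
    field_simp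
  have hρ0 : 0 ≤ ρ := by rw [hρexp]; exact (Real.exp_pos _).le
  have hu0 : 0 < s * Real.log 2 := by positivity
  have hu1 : s * Real.log 2 ≤ 1 := by nlinarith
  have hρle : ρ ≤ 1 / (1 + s * Real.log 2) := by
    rw [hρexp, Real.exp_neg, one_div]
    apply inv_anti₀ (by linarith)
    have := Real.add_one_le_exp (s * Real.log 2)
    linarith
  have h1ρ : s * Real.log 2 / 2 ≤ 1 - ρ := by
    have h1 : 1 - 1 / (1 + s * Real.log 2) = s * Real.log 2 / (1 + s * Real.log 2) := by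
      field_simp
      ring
    have h2 : s * Real.log 2 / 2 ≤ s * Real.log 2 / (1 + s * Real.log 2) :=
      div_le_div_of_nonneg_left hu0.le (by linarith) (by linarith)
    linarith
  have hρ1 : ρ < 1 := by linarith
  have hρpow : ρ ^ (128 * k) = 1 / 256 := by
    rw [hρexp, ← Real.exp_nat_mul]
    have h1 : ((128 * k : ℕ) : ℝ) * -(s * Real.log 2) = ((8 : ℕ) : ℝ) * -Real.log 2 := by
      rw [hs]
      push_cast
      field_simp
      ring
    rw [h1, Real.exp_nat_mul, Real.exp_neg, Real.exp_log (by norm_num)]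
    norm_num
  have hl4 : 0 ≤ 2 * Real.log 4 := by rw [hlog4]; positivity
  have hBd : ∀ m, 128 * k ≤ m → ∑ i ∈ Finset.range (2 ^ m + 1), fp i / (i : ℝ) ^ (1 + s)
      ≤ 2 * Real.log 4 * k + (Real.log 2 / 8) * (1 / (1 - ρ))
        + 2 * Real.log 4 * ((1 / 256) / (1 - ρ)) := by
    intro m hm
    rw [sum_blocks]
    have h0 : ∑ i ∈ Finset.range 2, fp i / (i : ℝ) ^ (1 + s) = 0 := by
      rw [Finset.sum_range_succ, Finset.sum_range_one,
        fp_eq_zero 0 (fun h => Nat.not_prime_zero h.1),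
        fp_eq_zero 1 (fun h => Nat.not_prime_one h.1)]
      simp
    rw [h0, zero_add]
    have hk128 : k ≤ 128 * k := by omega
    rw [← Finset.sum_range_add_sum_Ico _ hm, ← Finset.sum_range_add_sum_Ico _ hk128]
    have hA : ∑ j ∈ Finset.range k, ∑ i ∈ Finset.Ico (2 ^ j + 1) (2 ^ (j + 1) + 1),
        fp i / (i : ℝ) ^ (1 + s) ≤ 2 * Real.log 4 * k := by
      have h1 : ∑ j ∈ Finset.range k, ∑ i ∈ Finset.Ico (2 ^ j + 1) (2 ^ (j + 1) + 1),
          fp i / (i : ℝ) ^ (1 + s) ≤ ∑ j ∈ Finset.range k, 2 * Real.log 4 := by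
        apply Finset.sum_le_sum
        intro j _
        refine (block_cheb (1 + s) hx1.le j).trans ?_
        rw [← hρ]
        have h2 : ρ ^ j ≤ 1 := pow_le_one₀ hρ0 hρ1.le
        have h3 := mul_le_mul_of_nonneg_left h2 hl4
        linarith
      rw [Finset.sum_const, Finset.card_range, nsmul_eq_mul] at h1
      linarith
    have hB : ∑ j ∈ Finset.Ico k (128 * k), ∑ i ∈ Finset.Ico (2 ^ j + 1) (2 ^ (j + 1) + 1),
        fp i / (i : ℝ) ^ (1 + s) ≤ (Real.log 2 / 8) * (1 / (1 - ρ)) := by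
      have h1 : ∑ j ∈ Finset.Ico k (128 * k), ∑ i ∈ Finset.Ico (2 ^ j + 1) (2 ^ (j + 1) + 1),
          fp i / (i : ℝ) ^ (1 + s) ≤ ∑ j ∈ Finset.Ico k (128 * k), (Real.log 2 / 8) * ρ ^ j := by
        apply Finset.sum_le_sum
        intro j hj
        rw [Finset.mem_Ico] at hj
        have h2 := block_hyp (1 + s) hx1.le j (hyp j hj.1 hj.2)
        rw [← hρ] at h2
        exact h2
      rw [← Finset.mul_sum] at h1
      refine h1.trans ?_
      apply mul_le_mul_of_nonneg_left _ (by positivity)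
      refine (geom_sum_Ico_le_of_lt_one hρ0 hρ1).trans ?_
      exact div_le_div_of_nonneg_right (pow_le_one₀ hρ0 hρ1.le) (by linarith)
    have hD : ∑ j ∈ Finset.Ico (128 * k) m, ∑ i ∈ Finset.Ico (2 ^ j + 1) (2 ^ (j + 1) + 1),
        fp i / (i : ℝ) ^ (1 + s) ≤ 2 * Real.log 4 * ((1 / 256) / (1 - ρ)) := by
      have h1 : ∑ j ∈ Finset.Ico (128 * k) m, ∑ i ∈ Finset.Ico (2 ^ j + 1) (2 ^ (j + 1) + 1),
          fp i / (i : ℝ) ^ (1 + s) ≤ ∑ j ∈ Finset.Ico (128 * k) m, 2 * Real.log 4 * ρ ^ j := by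
        apply Finset.sum_le_sum
        intro j _
        have h2 := block_cheb (1 + s) hx1.le j
        rw [← hρ] at h2
        exact h2
      rw [← Finset.mul_sum] at h1
      refine h1.trans ?_
      apply mul_le_mul_of_nonneg_left _ hl4
      have h3 := geom_sum_Ico_le_of_lt_one (m := 128 * k) (n := m) hρ0 hρ1
      rw [hρpow] at h3
      exact h3
    linarith
  have hBd' : ∀ n, ∑ i ∈ Finset.range n, fp i / (i : ℝ) ^ (1 + s)
      ≤ 2 * Real.log 4 * k + (Real.log 2 / 8) * (1 / (1 - ρ))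
        + 2 * Real.log 4 * ((1 / 256) / (1 - ρ)) := by
    intro n
    have hn : n ≤ 2 ^ (max n (128 * k)) + 1 := by
      have h1 : n < 2 ^ n := Nat.lt_two_pow_self
      have h2 : 2 ^ n ≤ 2 ^ (max n (128 * k)) :=
        Nat.pow_le_pow_right (by norm_num) (le_max_left n (128 * k))
      omega
    have h3 : ∑ i ∈ Finset.range n, fp i / (i : ℝ) ^ (1 + s)
        ≤ ∑ i ∈ Finset.range (2 ^ (max n (128 * k)) + 1), fp i / (i : ℝ) ^ (1 + s) := by
      apply Finset.sum_le_sum_of_subset_of_nonneg (Finset.range_subset_range.mpr hn)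
      intro i _ _
      exact div_nonneg (fp_nonneg i) (Real.rpow_nonneg (Nat.cast_nonneg i) _)
    exact h3.trans (hBd _ (le_max_right n (128 * k)))
  have htsum : ∑' n : ℕ, fp n / (n : ℝ) ^ (1 + s)
      ≤ 2 * Real.log 4 * k + (Real.log 2 / 8) * (1 / (1 - ρ))
        + 2 * Real.log 4 * ((1 / 256) / (1 - ρ)) :=
    Real.tsum_le_of_sum_range_le
      (fun n => div_nonneg (fp_nonneg n) (Real.rpow_nonneg (Nat.cast_nonneg n) _)) hBd'
  have hlow := hC (1 + s) hx1 hx2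
  rw [add_sub_cancel_left] at hlow
  have h8 : 1 / (1 - ρ) ≤ 1 / (s * Real.log 2 / 2) :=
    one_div_le_one_div_of_le (by positivity) h1ρ
  have h10 : (Real.log 2 / 8) * (1 / (s * Real.log 2 / 2)) = (1 / 4) * (1 / s) := by
    field_simp
    ring
  have h9 : (Real.log 2 / 8) * (1 / (1 - ρ)) ≤ (1 / 4) * (1 / s) := by
    rw [← h10]
    exact mul_le_mul_of_nonneg_left h8 (by positivity)
  have h11 : 2 * Real.log 4 * ((1 / 256) / (1 - ρ)) = (Real.log 2 / 64) * (1 / (1 - ρ)) := by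
    rw [hlog4]
    ring
  have h12 : (Real.log 2 / 64) * (1 / (s * Real.log 2 / 2)) = (1 / 32) * (1 / s) := by
    field_simp
    ring
  have h13 : 2 * Real.log 4 * ((1 / 256) / (1 - ρ)) ≤ (1 / 32) * (1 / s) := by
    rw [h11, ← h12]
    exact mul_le_mul_of_nonneg_left h8 (by positivity)
  have h14 : (1 / 2 : ℝ) / s = (1 / 2) * (1 / s) := by ring
  rw [h14] at hlow
  rw [hsinv] at h9 h13 hlow
  have h15 : 2 * Real.log 4 * (k : ℝ) ≤ 2.78 * k := by
    rw [hlog4]
    have := Real.log_two_lt_d9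
    nlinarith
  linarith

end Vale.Agent.Helper15.P015
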