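import Mathlib
import Vale.Agent.Helper15.P015.Gauss

/-!
# Helper file for P015: the sieve

A weighted greedy sieve over residue classes modulo finitely many primes, a finishing stage
using one fresh prime per surviving element, the average of the correction factors coming from
primes dividing the transversal coordinate, and the resulting construction of a multiplier `N`
for which all the cells `N v + τ` of a box are composite.
-/

namespace Vale.Agent.Helper15.P015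

open GaussianInt

/-- Weighted greedy sieve (method of conditional expectations): for finitely many primes `p`
and sets `Kl p τ` of residues modulo `p`, some residue `M` leaves unsieved a set of weight at
most the expected weight. -/
theorem wgreedy {ι : Type} [DecidableEq ι] (Kl : ℕ → ι → Finset ℕ) (T : Finset ι) (F : Finset ℕ)
    (hF : ∀ p ∈ F, p.Prime) (hK : ∀ p ∈ F, ∀ τ, Kl p τ ⊆ Finset.range p) :
    ∀ w : ι → ℝ, (∀ τ, 0 ≤ w τ) →
    ∃ M : ℕ, ∑ τ ∈ T.filter (fun τ => ∀ p ∈ F, M % p ∉ Kl p τ), w τ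
      ≤ ∑ τ ∈ T, w τ * ∏ p ∈ F, (1 - ((Kl p τ).card : ℝ) / p) := by
  induction F using Finset.induction_on with
  | empty =>
    intro w _
    refine ⟨0, ?_⟩
    simp
  | insert q F hqF ih =>
    intro w hw
    have hqp : q.Prime := hF q (Finset.mem_insert_self q F)
    have hq0 : 0 < q := hqp.pos
    have hqr : (0 : ℝ) < q := by exact_mod_cast hq0
    have hKq : ∀ τ, ((Kl q τ).card : ℝ) ≤ q := by
      intro τ
      have h1 := Finset.card_le_card (hK q (Finset.mem_insert_self q F) τ)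
      rw [Finset.card_range] at h1
      exact_mod_cast h1
    obtain ⟨w', hw'def⟩ : ∃ w' : ι → ℝ, w' = fun τ => w τ * (1 - ((Kl q τ).card : ℝ) / q) :=
      ⟨_, rfl⟩
    have hw' : ∀ τ, 0 ≤ w' τ := by
      intro τ
      rw [hw'def]
      have h1 : ((Kl q τ).card : ℝ) / q ≤ 1 := by
        rw [div_le_one hqr]
        exact hKq τ
      exact mul_nonneg (hw τ) (by linarith)
    obtain ⟨M', hM'⟩ := ih (fun p hp => hF p (Finset.mem_insert_of_mem hp))
      (fun p hp => hK p (Finset.mem_insert_of_mem hp)) w' hw'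
    obtain ⟨S', hS'⟩ : ∃ S' : Finset ι, S' = T.filter (fun τ => ∀ p ∈ F, M' % p ∉ Kl p τ) :=
      ⟨_, rfl⟩
    rw [← hS'] at hM'
    have hne : (Finset.range q).Nonempty := ⟨0, Finset.mem_range.mpr hq0⟩
    have hinner : ∀ τ, ∑ r ∈ Finset.range q, (if r ∉ Kl q τ then w τ else 0) = (q : ℝ) * w' τ := by
      intro τ
      rw [← Finset.sum_filter, Finset.sum_const, nsmul_eq_mul, hw'def]
      have h1 : (Finset.range q).filter (fun r => r ∉ Kl q τ) = Finset.range q \ Kl q τ := by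
        ext r
        simp [Finset.mem_sdiff]
      rw [h1, Finset.card_sdiff_of_subset (hK q (Finset.mem_insert_self q F) τ), Finset.card_range,
        Nat.cast_sub (by
          have := Finset.card_le_card (hK q (Finset.mem_insert_self q F) τ)
          rwa [Finset.card_range] at this)]
      field_simp
    have hsum : ∑ r ∈ Finset.range q, ∑ τ ∈ S'.filter (fun τ => r ∉ Kl q τ), w τ
        ≤ ∑ r ∈ Finset.range q, ∑ τ ∈ S', w' τ := by
      have h1 : ∑ r ∈ Finset.range q, ∑ τ ∈ S'.filter (fun τ => r ∉ Kl q τ), w τ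
          = ∑ τ ∈ S', ∑ r ∈ Finset.range q, (if r ∉ Kl q τ then w τ else 0) := by
        rw [Finset.sum_comm]
        apply Finset.sum_congr rfl
        intro r _
        rw [Finset.sum_filter]
      rw [h1, Finset.sum_const, Finset.card_range, nsmul_eq_mul, Finset.mul_sum]
      exact le_of_eq (Finset.sum_congr rfl fun τ _ => hinner τ)
    obtain ⟨r, hr, hrle⟩ := Finset.exists_le_of_sum_le hne hsum
    have hrq : r < q := Finset.mem_range.mp hr
    have hcop : Nat.Coprime q (∏ p ∈ F, p) := by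
      apply Nat.Coprime.prod_right
      intro p hp
      have hp' : p.Prime := hF p (Finset.mem_insert_of_mem hp)
      rw [Nat.coprime_primes hqp hp']
      rintro rfl
      exact hqF hp
    obtain ⟨M, hM1, hM2⟩ := Nat.chineseRemainder hcop r M'
    have hMq : M % q = r := by
      have := hM1
      unfold Nat.ModEq at this
      rw [this, Nat.mod_eq_of_lt hrq]
    have hMp : ∀ p ∈ F, M % p = M' % p := fun p hp =>
      Nat.ModEq.of_dvd (Finset.dvd_prod_of_mem (fun p => p) hp) hM2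
    refine ⟨M, ?_⟩
    have hset : T.filter (fun τ => ∀ p ∈ insert q F, M % p ∉ Kl p τ)
        = S'.filter (fun τ => r ∉ Kl q τ) := by
      rw [hS']
      ext τ
      simp only [Finset.mem_filter, Finset.forall_mem_insert]
      constructor
      · rintro ⟨hT, hq', hF'⟩
        refine ⟨⟨hT, fun p hp => ?_⟩, ?_⟩
        · rw [← hMp p hp]
          exact hF' p hp
        · rw [← hMq]
          exact hq'
      · rintro ⟨⟨hT, hF'⟩, hq'⟩
        refine ⟨hT, ?_, fun p hp => ?_⟩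
        · rw [hMq]
          exact hq'
        · rw [hMp p hp]
          exact hF' p hp
    rw [hset]
    refine hrle.trans (hM'.trans (le_of_eq ?_))
    apply Finset.sum_congr rfl
    intro τ _
    rw [Finset.prod_insert hqF, hw'def]
    ring

/-- Finishing stage: with at least as many fresh primes as surviving elements, every survivor
gets its own prime. -/
theorem finish {ι : Type} [DecidableEq ι] (kill : ℕ → ι → ℕ) (F₂ : Finset ℕ)
    (hF : ∀ p ∈ F₂, p.Prime) (m₀ M₀ : ℕ) (hm₀ : ∀ p ∈ F₂, Nat.Coprime p m₀) :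
    ∀ S₀ : Finset ι, S₀.card ≤ F₂.card →
    ∃ M : ℕ, M ≡ M₀ [MOD m₀] ∧ ∀ τ ∈ S₀, ∃ p ∈ F₂, M % p = kill p τ % p := by
  induction F₂ using Finset.induction_on with
  | empty =>
    intro S₀ hcard
    have : S₀ = ∅ := Finset.card_eq_zero.mp (by simpa using hcard)
    refine ⟨M₀, Nat.ModEq.refl _, ?_⟩
    rw [this]
    intro τ hτ
    simp at hτ
  | insert q F₂ hqF ih =>
    intro S₀ hcard
    have hqp : q.Prime := hF q (Finset.mem_insert_self q F₂)
    have hF' : ∀ p ∈ F₂, p.Prime := fun p hp => hF p (Finset.mem_insert_of_mem hp)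
    have hm' : ∀ p ∈ F₂, Nat.Coprime p m₀ := fun p hp => hm₀ p (Finset.mem_insert_of_mem hp)
    rcases Finset.eq_empty_or_nonempty S₀ with hS | ⟨τ₀, hτ₀⟩
    · refine ⟨M₀, Nat.ModEq.refl _, ?_⟩
      rw [hS]
      intro τ hτ
      simp at hτ
    · have hcard' : (S₀.erase τ₀).card ≤ F₂.card := by
        rw [Finset.card_erase_of_mem hτ₀]
        rw [Finset.card_insert_of_notMem hqF] at hcard
        omega
      obtain ⟨M', hM'1, hM'2⟩ := ih hF' hm' (S₀.erase τ₀) hcard'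
      have hcop : Nat.Coprime q (m₀ * ∏ p ∈ F₂, p) := by
        apply Nat.Coprime.mul_right (hm₀ q (Finset.mem_insert_self q F₂))
        apply Nat.Coprime.prod_right
        intro p hp
        rw [Nat.coprime_primes hqp (hF' p hp)]
        rintro rfl
        exact hqF hp
      obtain ⟨M, hM1, hM2⟩ := Nat.chineseRemainder hcop (kill q τ₀) M'
      refine ⟨M, ?_, ?_⟩
      · exact (Nat.ModEq.of_dvd (Dvd.intro _ rfl) hM2).trans hM'1
      · intro τ hτ
        by_cases hττ : τ = τ₀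
        · refine ⟨q, Finset.mem_insert_self q F₂, ?_⟩
          rw [hττ]
          exact hM1
        · obtain ⟨p, hp, hp'⟩ := hM'2 τ (Finset.mem_erase.mpr ⟨hττ, hτ⟩)
          refine ⟨p, Finset.mem_insert_of_mem hp, ?_⟩
          rw [← hp']
          exact Nat.ModEq.of_dvd (Dvd.dvd.mul_left (Finset.dvd_prod_of_mem (fun p => p) hp) m₀) hM2

/-- The correction factor for the primes of `F` dividing `n`. -/
noncomputable def gfun (F : Finset ℕ) (n : ℕ) : ℝ :=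
  ∏ p ∈ F.filter (fun p => p ∣ n), (1 + 1 / ((p : ℝ) - 2))

theorem gfun_insert (F : Finset ℕ) (q : ℕ) (hq : q ∉ F) (n : ℕ) :
    gfun (insert q F) n = gfun F n * (if q ∣ n then (1 + 1 / ((q : ℝ) - 2)) else 1) := by
  unfold gfun
  rw [Finset.filter_insert]
  split_ifs with h
  · rw [Finset.prod_insert (fun hmem => hq (Finset.mem_filter.mp hmem).1), mul_comm]
  · rw [mul_one]

theorem gfun_mul (F : Finset ℕ) (hF : ∀ p ∈ F, p.Prime) (q : ℕ) (hqp : q.Prime) (hq : q ∉ F)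
    (m : ℕ) : gfun F (q * m) = gfun F m := by
  unfold gfun
  congr 1
  apply Finset.filter_congr
  intro p hp
  constructor
  · intro h
    rcases (hF p hp).dvd_mul.mp h with h1 | h1
    · exfalso
      have := (Nat.prime_dvd_prime_iff_eq (hF p hp) hqp).mp h1
      rw [this] at hp
      exact hq hp
    · exact h1
  · intro h
    exact Dvd.dvd.mul_left h q

theorem factor_nonneg (p : ℕ) (hp : 5 ≤ p) : 0 ≤ 1 / ((p : ℝ) * ((p : ℝ) - 2)) := by
  have : (5 : ℝ) ≤ p := by exact_mod_cast hp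
  apply div_nonneg zero_le_one
  nlinarith

/-- Average of the correction factors. -/
theorem gfun_sum (F : Finset ℕ) (hF : ∀ p ∈ F, p.Prime ∧ 5 ≤ p) :
    ∀ Z : ℕ, ∑ n ∈ Finset.Icc 1 Z, gfun F n
      ≤ (Z : ℝ) * ∏ p ∈ F, (1 + 1 / ((p : ℝ) * ((p : ℝ) - 2))) := by
  induction F using Finset.induction_on with
  | empty =>
    intro Z
    simp [gfun]
  | insert q F hqF ih =>
    intro Z
    have hqp := (hF q (Finset.mem_insert_self q F)).1
    have hq5 := (hF q (Finset.mem_insert_self q F)).2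
    have hF' : ∀ p ∈ F, p.Prime ∧ 5 ≤ p := fun p hp => hF p (Finset.mem_insert_of_mem hp)
    have hqr : (5 : ℝ) ≤ q := by exact_mod_cast hq5
    have hu : 0 ≤ 1 / ((q : ℝ) - 2) := by
      apply div_nonneg zero_le_one
      linarith
    have h1 : ∑ n ∈ Finset.Icc 1 Z, gfun (insert q F) n
        = ∑ n ∈ Finset.Icc 1 Z, gfun F n
          + (1 / ((q : ℝ) - 2)) * ∑ n ∈ (Finset.Icc 1 Z).filter (fun n => q ∣ n), gfun F n := by
      rw [Finset.mul_sum, Finset.sum_filter, ← Finset.sum_add_distrib]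
      apply Finset.sum_congr rfl
      intro n _
      rw [gfun_insert F q hqF n]
      split_ifs <;> ring
    have h2 : ∑ n ∈ (Finset.Icc 1 Z).filter (fun n => q ∣ n), gfun F n
        = ∑ m ∈ Finset.Icc 1 (Z / q), gfun F m := by
      have himg : (Finset.Icc 1 Z).filter (fun n => q ∣ n)
          = (Finset.Icc 1 (Z / q)).image (fun m => q * m) := by
        ext n
        simp only [Finset.mem_filter, Finset.mem_Icc, Finset.mem_image]
        constructor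
        · rintro ⟨⟨h1, h2⟩, ⟨m, rfl⟩⟩
          refine ⟨m, ⟨?_, ?_⟩, rfl⟩
          · by_contra hm
            have : m = 0 := by omega
            subst this
            simp at h1
          · exact (Nat.le_div_iff_mul_le hqp.pos).mpr (by rw [mul_comm]; exact h2)
        · rintro ⟨m, ⟨h1, h2⟩, rfl⟩
          refine ⟨⟨?_, ?_⟩, Dvd.intro m rfl⟩
          · exact Nat.one_le_iff_ne_zero.mpr (Nat.mul_ne_zero hqp.ne_zero (by omega))
          · calc q * m ≤ q * (Z / q) := Nat.mul_le_mul_left q h2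
              _ ≤ Z := Nat.mul_div_le Z q
      rw [himg, Finset.sum_image (fun a _ b _ hab => Nat.eq_of_mul_eq_mul_left hqp.pos hab)]
      apply Finset.sum_congr rfl
      intro m _
      exact gfun_mul F (fun p hp => (hF' p hp).1) q hqp hqF m
    rw [h1, h2, Finset.prod_insert hqF]
    have h3 := ih hF' Z
    have h4 := ih hF' (Z / q)
    have hprod0 : 0 ≤ ∏ p ∈ F, (1 + 1 / ((p : ℝ) * ((p : ℝ) - 2))) := by
      apply Finset.prod_nonneg
      intro p hp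
      have := factor_nonneg p (hF' p hp).2
      linarith
    have h5 : ((Z / q : ℕ) : ℝ) ≤ (Z : ℝ) / q := Nat.cast_div_le
    have h6 : (1 / ((q : ℝ) - 2)) * ∑ m ∈ Finset.Icc 1 (Z / q), gfun F m
        ≤ (1 / ((q : ℝ) - 2)) * (((Z : ℝ) / q)
          * ∏ p ∈ F, (1 + 1 / ((p : ℝ) * ((p : ℝ) - 2)))) := by
      apply mul_le_mul_of_nonneg_left _ hu
      exact h4.trans (mul_le_mul_of_nonneg_right h5 hprod0)
    have h7 : (Z : ℝ) * ((1 + 1 / ((q : ℝ) * ((q : ℝ) - 2)))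
          * ∏ p ∈ F, (1 + 1 / ((p : ℝ) * ((p : ℝ) - 2))))
        = (Z : ℝ) * ∏ p ∈ F, (1 + 1 / ((p : ℝ) * ((p : ℝ) - 2)))
          + (1 / ((q : ℝ) - 2)) * (((Z : ℝ) / q)
            * ∏ p ∈ F, (1 + 1 / ((p : ℝ) * ((p : ℝ) - 2)))) := by
      have hq2 : (q : ℝ) - 2 ≠ 0 := by linarith
      have hq0 : (q : ℝ) ≠ 0 := by linarith
      field_simp
    rw [h7]
    linarith

theorem sum_tele (M : ℕ) : ∑ n ∈ Finset.Ico 5 M, 1 / ((n : ℝ) * ((n : ℝ) - 2)) ≤ 1 / 3 := by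
  have key : ∀ M : ℕ, 5 ≤ M → ∑ n ∈ Finset.Ico 5 M, 1 / ((n : ℝ) * ((n : ℝ) - 2))
      ≤ 1 / 3 - 1 / ((M : ℝ) - 2) := by
    intro M hM
    induction M, hM using Nat.le_induction with
    | base =>
      simp
      norm_num
    | succ M hM ih =>
      rw [Finset.sum_Ico_succ_top hM]
      have hMr : (5 : ℝ) ≤ M := by exact_mod_cast hM
      have h1 : 1 / ((M : ℝ) * ((M : ℝ) - 2))
          ≤ 1 / ((M : ℝ) - 2) - 1 / (((M + 1 : ℕ) : ℝ) - 2) := by
        push_cast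
        rw [div_sub_div _ _ (by linarith) (by linarith),
          div_le_div_iff₀ (by nlinarith) (by nlinarith)]
        nlinarith
      linarith
  rcases le_or_gt 5 M with h | h
  · have h1 := key M h
    have hMr : (5 : ℝ) ≤ M := by exact_mod_cast h
    have h2 : 0 ≤ 1 / ((M : ℝ) - 2) := by
      apply div_nonneg zero_le_one
      linarith
    linarith
  · rw [Finset.Ico_eq_empty (by omega)]
    simp

theorem prod_le_two (F : Finset ℕ) (hF : ∀ p ∈ F, 5 ≤ p) :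
    ∏ p ∈ F, (1 + 1 / ((p : ℝ) * ((p : ℝ) - 2))) ≤ 2 := by
  have h1 : ∏ p ∈ F, (1 + 1 / ((p : ℝ) * ((p : ℝ) - 2)))
      ≤ ∏ p ∈ F, Real.exp (1 / ((p : ℝ) * ((p : ℝ) - 2))) := by
    apply Finset.prod_le_prod
    · intro p hp
      have := factor_nonneg p (hF p hp)
      linarith
    · intro p _
      have := Real.add_one_le_exp (1 / ((p : ℝ) * ((p : ℝ) - 2)))
      linarith
  rw [← Real.exp_sum] at h1
  have h2 : ∑ p ∈ F, 1 / ((p : ℝ) * ((p : ℝ) - 2)) ≤ 1 / 3 := by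
    have hsub : F ⊆ Finset.Ico 5 (F.sup id + 1) := by
      intro p hp
      rw [Finset.mem_Ico]
      exact ⟨hF p hp, Nat.lt_succ_of_le (Finset.le_sup (f := id) hp)⟩
    refine le_trans ?_ (sum_tele (F.sup id + 1))
    apply Finset.sum_le_sum_of_subset_of_nonneg hsub
    intro n hn _
    rw [Finset.mem_Ico] at hn
    exact factor_nonneg n hn.1
  have h3 : Real.exp (1 / 3) ≤ 2 := by
    have h4 : (1 : ℝ) / 3 ≤ Real.log 2 := by
      have := Real.log_two_gt_d9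
      linarith
    calc Real.exp (1 / 3) ≤ Real.exp (Real.log 2) := Real.exp_le_exp.mpr h4
      _ = 2 := Real.exp_log (by norm_num)
  exact h1.trans ((Real.exp_le_exp.mpr h2).trans h3)

theorem sum_natAbs (g : ℕ → ℝ) (Z : ℕ) :
    ∑ y ∈ Finset.Icc (-(Z : ℤ)) Z, (if y = 0 then 0 else g y.natAbs)
      = 2 * ∑ n ∈ Finset.Icc 1 Z, g n := by
  induction Z with
  | zero => simp
  | succ Z ih =>
    have hset : Finset.Icc (-((Z + 1 : ℕ) : ℤ)) ((Z + 1 : ℕ) : ℤ)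
        = insert (((Z + 1 : ℕ) : ℤ)) (insert (-((Z + 1 : ℕ) : ℤ)) (Finset.Icc (-(Z : ℤ)) Z)) := by
      ext y
      simp only [Finset.mem_Icc, Finset.mem_insert]
      push_cast
      omega
    rw [hset, Finset.sum_insert, Finset.sum_insert, ih, Finset.sum_Icc_succ_top (by omega)]
    · have h1 : ((Z + 1 : ℕ) : ℤ) ≠ 0 := by
        push_cast
        omega
      have h2 : -((Z + 1 : ℕ) : ℤ) ≠ 0 := by
        push_cast
        omega
      rw [if_neg h1, if_neg h2]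
      simp only [Int.natAbs_neg, Int.natAbs_natCast]
      ring
    · simp only [Finset.mem_Icc]
      push_cast
      omega
    · simp only [Finset.mem_insert, Finset.mem_Icc]
      push_cast
      omega

theorem gfun_nonneg (F : Finset ℕ) (hF : ∀ p ∈ F, p.Prime ∧ 5 ≤ p) (n : ℕ) : 0 ≤ gfun F n := by
  unfold gfun
  apply Finset.prod_nonneg
  intro p hp
  have h5 : (5 : ℝ) ≤ p := by exact_mod_cast (hF p (Finset.mem_filter.mp hp).1).2
  have : 0 ≤ 1 / ((p : ℝ) - 2) := by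
    apply div_nonneg zero_le_one
    linarith
  linarith

theorem factor_split (p : ℝ) (hp : 5 ≤ p) : 1 - 1 / p = (1 - 2 / p) * (1 + 1 / (p - 2)) := by
  have h1 : p ≠ 0 := by linarith
  have h2 : p - 2 ≠ 0 := by linarith
  field_simp
  ring

/-- Expected number of survivors of the first sieving stage, when every cell loses one or two
residue classes modulo each prime, and two whenever the prime does not divide the transversal
coordinate of the cell. -/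
theorem count_bound (v : GaussianInt) (hv : v ≠ 0) (F : Finset ℕ)
    (hF : ∀ p ∈ F, p.Prime ∧ 5 ≤ p) (Kl : ℕ → GaussianInt → Finset ℕ) (Xr : Finset ℤ) (Z : ℕ)
    (T : Finset GaussianInt) (hT : ∀ τ ∈ T, X v τ ∈ Xr ∧ |Y v τ| ≤ Z)
    (hK1 : ∀ p ∈ F, ∀ τ, 1 ≤ (Kl p τ).card ∧ (Kl p τ).card ≤ 2)
    (hK2 : ∀ p ∈ F, ∀ τ, ¬ (p : ℤ) ∣ Y v τ → (Kl p τ).card = 2) :
    ∑ τ ∈ T, ∏ p ∈ F, (1 - ((Kl p τ).card : ℝ) / p)
      ≤ (Xr.card : ℝ) + 4 * Xr.card * Z * ∏ p ∈ F, (1 - 2 / (p : ℝ)) := by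
  classical
  obtain ⟨Pd, hPd⟩ : ∃ Pd : ℝ, Pd = ∏ p ∈ F, (1 - 2 / (p : ℝ)) := ⟨_, rfl⟩
  rw [← hPd]
  have hfac0 : ∀ p ∈ F, ∀ τ, 0 ≤ 1 - ((Kl p τ).card : ℝ) / p := by
    intro p hp τ
    have h5 : (5 : ℝ) ≤ p := by exact_mod_cast (hF p hp).2
    have h2 : ((Kl p τ).card : ℝ) ≤ 2 := by exact_mod_cast (hK1 p hp τ).2
    have : ((Kl p τ).card : ℝ) / p ≤ 1 := by
      rw [div_le_one (by linarith)]
      linarith
    linarith
  have hPd0 : 0 ≤ Pd := by
    rw [hPd]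
    apply Finset.prod_nonneg
    intro p hp
    have h5 : (5 : ℝ) ≤ p := by exact_mod_cast (hF p hp).2
    have : 2 / (p : ℝ) ≤ 1 := by
      rw [div_le_one (by linarith)]
      linarith
    linarith
  obtain ⟨h', hh'⟩ : ∃ h' : ℤ × ℤ → ℝ,
      h' = fun q => if q.2 = 0 then 1 else Pd * gfun F q.2.natAbs := ⟨_, rfl⟩
  have hh'0 : ∀ q, 0 ≤ h' q := by
    intro q
    rw [hh']
    dsimp only
    split_ifs
    · exact zero_le_one
    · exact mul_nonneg hPd0 (gfun_nonneg F hF _)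
  have hterm : ∀ τ ∈ T, ∏ p ∈ F, (1 - ((Kl p τ).card : ℝ) / p) ≤ h' (X v τ, Y v τ) := by
    intro τ _
    rw [hh']
    dsimp only
    split_ifs with hY
    · apply Finset.prod_le_one
      · intro p hp
        exact hfac0 p hp τ
      · intro p hp
        have h5 : (5 : ℝ) ≤ p := by exact_mod_cast (hF p hp).2
        have : 0 ≤ ((Kl p τ).card : ℝ) / p := div_nonneg (Nat.cast_nonneg _) (by linarith)
        linarith
    · have hprod : Pd * gfun F (Y v τ).natAbs = ∏ p ∈ F, ((1 - 2 / (p : ℝ))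
          * (if p ∣ (Y v τ).natAbs then (1 + 1 / ((p : ℝ) - 2)) else 1)) := by
        rw [Finset.prod_mul_distrib, hPd]
        unfold gfun
        rw [Finset.prod_filter]
      rw [hprod]
      apply Finset.prod_le_prod
      · intro p hp
        exact hfac0 p hp τ
      · intro p hp
        have h5 : (5 : ℝ) ≤ p := by exact_mod_cast (hF p hp).2
        split_ifs with hd
        · rw [← factor_split (p : ℝ) h5]
          have h1 : (1 : ℝ) ≤ ((Kl p τ).card : ℝ) := by exact_mod_cast (hK1 p hp τ).1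
          have h2 : 1 / (p : ℝ) ≤ ((Kl p τ).card : ℝ) / p :=
            div_le_div_of_nonneg_right h1 (by linarith)
          linarith
        · have hnd : ¬ (p : ℤ) ∣ Y v τ := by
            intro hdvd
            exact hd (Int.natCast_dvd.mp hdvd)
          rw [hK2 p hp τ hnd, mul_one]
          push_cast
          exact le_rfl
  have hinj : Set.InjOn (fun τ : GaussianInt => (X v τ, Y v τ)) (T : Set GaussianInt) := by
    intro τ _ τ' _ hττ
    simp only [Prod.mk.injEq] at hττ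
    exact XY_inj v hv τ τ' hττ.1 hττ.2
  have hsub : T.image (fun τ : GaussianInt => (X v τ, Y v τ))
      ⊆ Xr ×ˢ Finset.Icc (-(Z : ℤ)) Z := by
    intro q hq
    obtain ⟨τ, hτ, rfl⟩ := Finset.mem_image.mp hq
    have h1 := hT τ hτ
    rw [Finset.mem_product, Finset.mem_Icc]
    exact ⟨h1.1, abs_le.mp h1.2⟩
  have hysum : ∑ y ∈ Finset.Icc (-(Z : ℤ)) Z, (if y = 0 then (1 : ℝ) else Pd * gfun F y.natAbs)
      ≤ 1 + 4 * Z * Pd := by
    have h1 : ∀ y : ℤ, (if y = 0 then (1 : ℝ) else Pd * gfun F y.natAbs)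
        = (if y = 0 then (1 : ℝ) else 0) + Pd * (if y = 0 then 0 else gfun F y.natAbs) := by
      intro y
      split_ifs <;> ring
    rw [Finset.sum_congr rfl (fun y _ => h1 y), Finset.sum_add_distrib, ← Finset.mul_sum,
      sum_natAbs (gfun F) Z, Finset.sum_ite_eq']
    have h0 : (0 : ℤ) ∈ Finset.Icc (-(Z : ℤ)) Z := by
      rw [Finset.mem_Icc]
      constructor <;> omega
    rw [if_pos h0]
    have h2 := gfun_sum F hF Z
    have h3 := prod_le_two F (fun p hp => (hF p hp).2)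
    have h4 : (Z : ℝ) * ∏ p ∈ F, (1 + 1 / ((p : ℝ) * ((p : ℝ) - 2))) ≤ (Z : ℝ) * 2 :=
      mul_le_mul_of_nonneg_left h3 (Nat.cast_nonneg Z)
    have h5 : Pd * (2 * ∑ n ∈ Finset.Icc 1 Z, gfun F n) ≤ Pd * (2 * ((Z : ℝ) * 2)) :=
      mul_le_mul_of_nonneg_left (by linarith) hPd0
    linarith
  calc ∑ τ ∈ T, ∏ p ∈ F, (1 - ((Kl p τ).card : ℝ) / p)
      ≤ ∑ τ ∈ T, h' (X v τ, Y v τ) := Finset.sum_le_sum hterm
    _ = ∑ q ∈ T.image (fun τ : GaussianInt => (X v τ, Y v τ)), h' q :=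
        (Finset.sum_image hinj).symm
    _ ≤ ∑ q ∈ Xr ×ˢ Finset.Icc (-(Z : ℤ)) Z, h' q :=
        Finset.sum_le_sum_of_subset_of_nonneg hsub (fun q _ _ => hh'0 q)
    _ = (Xr.card : ℝ) * ∑ y ∈ Finset.Icc (-(Z : ℤ)) Z,
          (if y = 0 then (1 : ℝ) else Pd * gfun F y.natAbs) := by
        rw [Finset.sum_product, hh']
        simp only [Finset.sum_const, nsmul_eq_mul]
    _ ≤ (Xr.card : ℝ) * (1 + 4 * Z * Pd) := mul_le_mul_of_nonneg_left hysum (Nat.cast_nonneg _)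
    _ = (Xr.card : ℝ) + 4 * Xr.card * Z * Pd := by ring

/-- The two-stage sieve: a multiplier `N` of controlled size such that every cell `N v + τ` of
the box is composite. -/
theorem sieve2 (v : GaussianInt) (hv : v ≠ 0) (F₁ F₂ : Finset ℕ)
    (hF₁ : ∀ p ∈ F₁, p.Prime ∧ p % 4 = 1 ∧ ¬ (p : ℤ) ∣ v.norm)
    (hF₂ : ∀ p ∈ F₂, p.Prime ∧ p % 4 = 1 ∧ ¬ (p : ℤ) ∣ v.norm)
    (hdisj : ∀ p ∈ F₁, p ∉ F₂)
    (Xr : Finset ℤ) (hXr : ∀ x ∈ Xr, 0 < x) (Z : ℕ) (T : Finset GaussianInt)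
    (hT : ∀ τ ∈ T, X v τ ∈ Xr ∧ |Y v τ| ≤ Z)
    (hcount : (Xr.card : ℝ) + 4 * Xr.card * Z * ∏ p ∈ F₁, (1 - 2 / (p : ℝ)) ≤ F₂.card) :
    ∃ N : ℕ, (∏ p ∈ F₁, p) * (∏ p ∈ F₂, p) ≤ N ∧ N < 2 * ((∏ p ∈ F₁, p) * (∏ p ∈ F₂, p)) ∧
      ∀ τ ∈ T, ¬ Prime ((N : GaussianInt) * v + τ) := by
  classical
  have hvn : 1 ≤ v.norm := GaussianInt.norm_pos.mpr hv
  have hex : ∀ (p : ℕ) (τ : GaussianInt), ∃ r₁ r₂ : ℕ, (p ∈ F₁ ∨ p ∈ F₂) →
      (r₁ < p ∧ r₂ < p ∧
      (∀ N : ℕ, (N % p = r₁ ∨ N % p = r₂) → (p : ℤ) ∣ ((N : GaussianInt) * v + τ).norm) ∧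
      (¬ (p : ℤ) ∣ Y v τ → r₁ ≠ r₂)) := by
    intro p τ
    by_cases hp : p ∈ F₁ ∨ p ∈ F₂
    · have hp' : p.Prime ∧ p % 4 = 1 ∧ ¬ (p : ℤ) ∣ v.norm := by
        rcases hp with h | h
        · exact hF₁ p h
        · exact hF₂ p h
      obtain ⟨r₁, r₂, h⟩ := exists_kill2 v p hp'.1 hp'.2.1 hp'.2.2 τ
      exact ⟨r₁, r₂, fun _ => h⟩
    · exact ⟨0, 0, fun h => absurd h hp⟩
  choose k1 k2 hk using hex
  obtain ⟨Kl, hKl⟩ : ∃ Kl : ℕ → GaussianInt → Finset ℕ,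
      Kl = fun p τ => ({k1 p τ, k2 p τ} : Finset ℕ) := ⟨_, rfl⟩
  have hKmem : ∀ p τ r, r ∈ Kl p τ ↔ (r = k1 p τ ∨ r = k2 p τ) := by
    intro p τ r
    rw [hKl]
    simp
  have hF₁5 : ∀ p ∈ F₁, p.Prime ∧ 5 ≤ p := by
    intro p hp
    obtain ⟨h1, h2, _⟩ := hF₁ p hp
    refine ⟨h1, ?_⟩
    by_contra hcon
    have h3 : p = 1 := by omega
    rw [h3] at h1
    exact Nat.not_prime_one h1
  have hKsub : ∀ p ∈ F₁, ∀ τ, Kl p τ ⊆ Finset.range p := by
    intro p hp τ r hr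
    rw [hKmem] at hr
    obtain ⟨h1, h2, _, _⟩ := hk p τ (Or.inl hp)
    rw [Finset.mem_range]
    rcases hr with h | h <;> omega
  have hK1 : ∀ p ∈ F₁, ∀ τ, 1 ≤ (Kl p τ).card ∧ (Kl p τ).card ≤ 2 := by
    intro p _ τ
    rw [hKl]
    exact ⟨Finset.card_pos.mpr (Finset.insert_nonempty _ _), Finset.card_le_two⟩
  have hK2 : ∀ p ∈ F₁, ∀ τ, ¬ (p : ℤ) ∣ Y v τ → (Kl p τ).card = 2 := by
    intro p hp τ hnd
    obtain ⟨_, _, _, h4⟩ := hk p τ (Or.inl hp)
    rw [hKl]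
    exact Finset.card_pair (h4 hnd)
  have hcb := count_bound v hv F₁ hF₁5 Kl Xr Z T hT hK1 hK2
  obtain ⟨M₁, hM₁⟩ := wgreedy Kl T F₁ (fun p hp => (hF₁ p hp).1) hKsub (fun _ => (1 : ℝ))
    (fun _ => zero_le_one)
  obtain ⟨S₁, hS₁⟩ : ∃ S₁ : Finset GaussianInt,
      S₁ = T.filter (fun τ => ∀ p ∈ F₁, M₁ % p ∉ Kl p τ) := ⟨_, rfl⟩
  rw [← hS₁] at hM₁
  have hS₁card : S₁.card ≤ F₂.card := by
    have h1 : (S₁.card : ℝ) ≤ ∑ τ ∈ T, ∏ p ∈ F₁, (1 - ((Kl p τ).card : ℝ) / p) := by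
      simp only [Finset.sum_const, nsmul_eq_mul, mul_one, one_mul] at hM₁
      exact hM₁
    have h2 : (S₁.card : ℝ) ≤ (F₂.card : ℝ) := h1.trans (hcb.trans hcount)
    exact_mod_cast h2
  have hcop : ∀ p ∈ F₂, Nat.Coprime p (∏ q ∈ F₁, q) := by
    intro p hp
    apply Nat.Coprime.prod_right
    intro q hq
    rw [Nat.coprime_primes (hF₂ p hp).1 (hF₁ q hq).1]
    rintro rfl
    exact hdisj p hq hp
  obtain ⟨M₂, hM₂1, hM₂2⟩ := finish k1 F₂ (fun p hp => (hF₂ p hp).1) (∏ q ∈ F₁, q) M₁ hcop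
    S₁ hS₁card
  obtain ⟨P, hP⟩ : ∃ P : ℕ, P = (∏ p ∈ F₁, p) * (∏ p ∈ F₂, p) := ⟨_, rfl⟩
  have hPpos : 0 < P := by
    rw [hP]
    apply Nat.mul_pos
    · exact Nat.pos_of_ne_zero (Finset.prod_ne_zero_iff.mpr fun p hp => (hF₁ p hp).1.ne_zero)
    · exact Nat.pos_of_ne_zero (Finset.prod_ne_zero_iff.mpr fun p hp => (hF₂ p hp).1.ne_zero)
  rw [← hP]
  have hmodlt : M₂ % P < P := Nat.mod_lt _ hPpos
  refine ⟨M₂ % P + P, by omega, by omega, ?_⟩
  have hNmod : M₂ % P + P ≡ M₂ [MOD P] := by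
    unfold Nat.ModEq
    rw [Nat.add_mod_right, Nat.mod_mod]
  have hdvd1 : ∀ p ∈ F₁, p ∣ P := by
    intro p hp
    rw [hP]
    exact Dvd.dvd.mul_right (Finset.dvd_prod_of_mem (fun p => p) hp) _
  have hdvd2 : ∀ p ∈ F₂, p ∣ P := by
    intro p hp
    rw [hP]
    exact Dvd.dvd.mul_left (Finset.dvd_prod_of_mem (fun p => p) hp) _
  have hcomp : ∀ τ ∈ T, ∀ p : ℕ, p.Prime → p ∣ P →
      (p : ℤ) ∣ (((M₂ % P + P : ℕ) : GaussianInt) * v + τ).norm →
      ¬ Prime (((M₂ % P + P : ℕ) : GaussianInt) * v + τ) := by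
    intro τ hτ p hpp hpP hpd
    apply not_prime_of_dvd_norm _ p hpp hpd
    have h1 : p ≤ M₂ % P + P := (Nat.le_of_dvd hPpos hpP).trans (by omega)
    have h2 := cell_norm_gt_sq v τ hvn (M₂ % P + P) (hXr _ (hT τ hτ).1)
    have h3 : (p : ℤ) ≤ ((M₂ % P + P : ℕ) : ℤ) := by exact_mod_cast h1
    have h4 : (p : ℤ) ^ 2 ≤ ((M₂ % P + P : ℕ) : ℤ) ^ 2 :=
      pow_le_pow_left₀ (Nat.cast_nonneg p) h3 2
    exact lt_of_le_of_lt h4 h2
  intro τ hτ
  by_cases hτS : τ ∈ S₁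
  · obtain ⟨p, hp, hpM⟩ := hM₂2 τ hτS
    obtain ⟨h1, h2, h3, _⟩ := hk p τ (Or.inr hp)
    have hmod : (M₂ % P + P) % p = k1 p τ := by
      have h5 : (M₂ % P + P) % p = M₂ % p := Nat.ModEq.of_dvd (hdvd2 p hp) hNmod
      rw [h5, hpM, Nat.mod_eq_of_lt h1]
    exact hcomp τ hτ p (hF₂ p hp).1 (hdvd2 p hp) (h3 _ (Or.inl hmod))
  · have hex2 : ∃ p ∈ F₁, M₁ % p ∈ Kl p τ := by
      by_contra hcon
      apply hτS
      rw [hS₁, Finset.mem_filter]
      refine ⟨hτ, fun p hp hmem => hcon ⟨p, hp, hmem⟩⟩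
    obtain ⟨p, hp, hmem⟩ := hex2
    obtain ⟨h1, h2, h3, _⟩ := hk p τ (Or.inl hp)
    have hmod : (M₂ % P + P) % p = M₁ % p := by
      have h5 : (M₂ % P + P) % p = M₂ % p := Nat.ModEq.of_dvd (hdvd1 p hp) hNmod
      have h6 : M₂ % p = M₁ % p :=
        Nat.ModEq.of_dvd (Finset.dvd_prod_of_mem (fun p => p) hp) hM₂1
      rw [h5, h6]
    rw [hKmem] at hmem
    rw [← hmod] at hmem
    exact hcomp τ hτ p (hF₁ p hp).1 (hdvd1 p hp) (h3 _ hmem)

/-- Divisibility of the norm by a prime dividing the modulus is invariant under translation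
by Gaussian multiples of the modulus. -/
theorem norm_translate (z μ : GaussianInt) (P p : ℕ) (hpP : p ∣ P) (h : (p : ℤ) ∣ z.norm) :
    (p : ℤ) ∣ (z + (P : GaussianInt) * μ).norm := by
  have h1 : (z + (P : GaussianInt) * μ).norm
      = z.norm + (P : ℤ) * (2 * (z.re * μ.re + z.im * μ.im) + P * μ.norm) := by
    simp [Zsqrtd.norm_def]
    ring
  rw [h1]
  exact dvd_add h (Dvd.dvd.mul_right (Int.natCast_dvd_natCast.mpr hpP) _)

/-- The two-stage sieve, divisor form: a residue `M` below the modulus such that the norm of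
every cell `M v + τ` of the box is divisible by one of the sieving primes. -/
theorem sieve3 (v : GaussianInt) (hv : v ≠ 0) (F₁ F₂ : Finset ℕ)
    (hF₁ : ∀ p ∈ F₁, p.Prime ∧ p % 4 = 1 ∧ ¬ (p : ℤ) ∣ v.norm)
    (hF₂ : ∀ p ∈ F₂, p.Prime ∧ p % 4 = 1 ∧ ¬ (p : ℤ) ∣ v.norm)
    (hdisj : ∀ p ∈ F₁, p ∉ F₂)
    (Xr : Finset ℤ) (Z : ℕ) (T : Finset GaussianInt)
    (hT : ∀ τ ∈ T, X v τ ∈ Xr ∧ |Y v τ| ≤ Z)
    (hcount : (Xr.card : ℝ) + 4 * Xr.card * Z * ∏ p ∈ F₁, (1 - 2 / (p : ℝ)) ≤ F₂.card) :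
    ∃ M : ℕ, M < (∏ p ∈ F₁, p) * (∏ p ∈ F₂, p) ∧
      ∀ τ ∈ T, ∃ p : ℕ, p.Prime ∧ p ∣ (∏ p ∈ F₁, p) * (∏ p ∈ F₂, p) ∧
        (p : ℤ) ∣ ((M : GaussianInt) * v + τ).norm := by
  classical
  have hex : ∀ (p : ℕ) (τ : GaussianInt), ∃ r₁ r₂ : ℕ, (p ∈ F₁ ∨ p ∈ F₂) →
      (r₁ < p ∧ r₂ < p ∧
      (∀ N : ℕ, (N % p = r₁ ∨ N % p = r₂) → (p : ℤ) ∣ ((N : GaussianInt) * v + τ).norm) ∧
      (¬ (p : ℤ) ∣ Y v τ → r₁ ≠ r₂)) := by
    intro p τ
    by_cases hp : p ∈ F₁ ∨ p ∈ F₂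
    · have hp' : p.Prime ∧ p % 4 = 1 ∧ ¬ (p : ℤ) ∣ v.norm := by
        rcases hp with h | h
        · exact hF₁ p h
        · exact hF₂ p h
      obtain ⟨r₁, r₂, h⟩ := exists_kill2 v p hp'.1 hp'.2.1 hp'.2.2 τ
      exact ⟨r₁, r₂, fun _ => h⟩
    · exact ⟨0, 0, fun h => absurd h hp⟩
  choose k1 k2 hk using hex
  obtain ⟨Kl, hKl⟩ : ∃ Kl : ℕ → GaussianInt → Finset ℕ,
      Kl = fun p τ => ({k1 p τ, k2 p τ} : Finset ℕ) := ⟨_, rfl⟩
  have hKmem : ∀ p τ r, r ∈ Kl p τ ↔ (r = k1 p τ ∨ r = k2 p τ) := by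
    intro p τ r
    rw [hKl]
    simp
  have hF₁5 : ∀ p ∈ F₁, p.Prime ∧ 5 ≤ p := by
    intro p hp
    obtain ⟨h1, h2, _⟩ := hF₁ p hp
    refine ⟨h1, ?_⟩
    by_contra hcon
    have h3 : p = 1 := by omega
    rw [h3] at h1
    exact Nat.not_prime_one h1
  have hKsub : ∀ p ∈ F₁, ∀ τ, Kl p τ ⊆ Finset.range p := by
    intro p hp τ r hr
    rw [hKmem] at hr
    obtain ⟨h1, h2, _, _⟩ := hk p τ (Or.inl hp)
    rw [Finset.mem_range]
    rcases hr with h | h <;> omega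
  have hK1 : ∀ p ∈ F₁, ∀ τ, 1 ≤ (Kl p τ).card ∧ (Kl p τ).card ≤ 2 := by
    intro p _ τ
    rw [hKl]
    exact ⟨Finset.card_pos.mpr (Finset.insert_nonempty _ _), Finset.card_le_two⟩
  have hK2 : ∀ p ∈ F₁, ∀ τ, ¬ (p : ℤ) ∣ Y v τ → (Kl p τ).card = 2 := by
    intro p hp τ hnd
    obtain ⟨_, _, _, h4⟩ := hk p τ (Or.inl hp)
    rw [hKl]
    exact Finset.card_pair (h4 hnd)
  have hcb := count_bound v hv F₁ hF₁5 Kl Xr Z T hT hK1 hK2
  obtain ⟨M₁, hM₁⟩ := wgreedy Kl T F₁ (fun p hp => (hF₁ p hp).1) hKsub (fun _ => (1 : ℝ))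
    (fun _ => zero_le_one)
  obtain ⟨S₁, hS₁⟩ : ∃ S₁ : Finset GaussianInt,
      S₁ = T.filter (fun τ => ∀ p ∈ F₁, M₁ % p ∉ Kl p τ) := ⟨_, rfl⟩
  rw [← hS₁] at hM₁
  have hS₁card : S₁.card ≤ F₂.card := by
    have h1 : (S₁.card : ℝ) ≤ ∑ τ ∈ T, ∏ p ∈ F₁, (1 - ((Kl p τ).card : ℝ) / p) := by
      simp only [Finset.sum_const, nsmul_eq_mul, mul_one, one_mul] at hM₁
      exact hM₁
    have h2 : (S₁.card : ℝ) ≤ (F₂.card : ℝ) := h1.trans (hcb.trans hcount)
    exact_mod_cast h2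
  have hcop : ∀ p ∈ F₂, Nat.Coprime p (∏ q ∈ F₁, q) := by
    intro p hp
    apply Nat.Coprime.prod_right
    intro q hq
    rw [Nat.coprime_primes (hF₂ p hp).1 (hF₁ q hq).1]
    rintro rfl
    exact hdisj p hq hp
  obtain ⟨M₂, hM₂1, hM₂2⟩ := finish k1 F₂ (fun p hp => (hF₂ p hp).1) (∏ q ∈ F₁, q) M₁ hcop
    S₁ hS₁card
  obtain ⟨P, hP⟩ : ∃ P : ℕ, P = (∏ p ∈ F₁, p) * (∏ p ∈ F₂, p) := ⟨_, rfl⟩
  have hPpos : 0 < P := by
    rw [hP]
    apply Nat.mul_pos
    · exact Nat.pos_of_ne_zero (Finset.prod_ne_zero_iff.mpr fun p hp => (hF₁ p hp).1.ne_zero)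
    · exact Nat.pos_of_ne_zero (Finset.prod_ne_zero_iff.mpr fun p hp => (hF₂ p hp).1.ne_zero)
  rw [← hP]
  refine ⟨M₂ % P, Nat.mod_lt _ hPpos, ?_⟩
  have hdvd1 : ∀ p ∈ F₁, p ∣ P := by
    intro p hp
    rw [hP]
    exact Dvd.dvd.mul_right (Finset.dvd_prod_of_mem (fun p => p) hp) _
  have hdvd2 : ∀ p ∈ F₂, p ∣ P := by
    intro p hp
    rw [hP]
    exact Dvd.dvd.mul_left (Finset.dvd_prod_of_mem (fun p => p) hp) _
  intro τ hτ
  by_cases hτS : τ ∈ S₁
  · obtain ⟨p, hp, hpM⟩ := hM₂2 τ hτS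
    obtain ⟨h1, h2, h3, _⟩ := hk p τ (Or.inr hp)
    have hmod : M₂ % P % p = k1 p τ := by
      rw [Nat.mod_mod_of_dvd _ (hdvd2 p hp), hpM, Nat.mod_eq_of_lt h1]
    exact ⟨p, (hF₂ p hp).1, hdvd2 p hp, h3 _ (Or.inl hmod)⟩
  · have hex2 : ∃ p ∈ F₁, M₁ % p ∈ Kl p τ := by
      by_contra hcon
      apply hτS
      rw [hS₁, Finset.mem_filter]
      refine ⟨hτ, fun p hp hmem => hcon ⟨p, hp, hmem⟩⟩
    obtain ⟨p, hp, hmem⟩ := hex2
    obtain ⟨h1, h2, h3, _⟩ := hk p τ (Or.inl hp)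
    have hmod : M₂ % P % p = M₁ % p := by
      have h6 : M₂ % p = M₁ % p :=
        Nat.ModEq.of_dvd (Finset.dvd_prod_of_mem (fun p => p) hp) hM₂1
      rw [Nat.mod_mod_of_dvd _ (hdvd1 p hp), h6]
    rw [hKmem] at hmem
    rw [← hmod] at hmem
    exact ⟨p, (hF₁ p hp).1, hdvd1 p hp, h3 _ hmem⟩

end Vale.Agent.Helper15.P015
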