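import Mathlib
import Vale.Agent.Helper15.P015.Primes
import Vale.Agent.Helper15.P015.Gauss
import Vale.Agent.Helper15.P015.Sieve

/-!
# P015 (Gaussian moat problem): no bounded-step walk inside a strip of logarithmic width
# around a line with Gaussian-integer direction

Let `v ≠ 0` be a Gaussian integer and `D` a real number.  There is a constant `c > 0`, depending
only on `v` and `D`, such that for every Gaussian integer `a` and every real `C` there is no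
infinite sequence of pairwise distinct Gaussian primes with consecutive Euclidean distances at
most `D` all of whose terms `z` lie within distance `C + c log |z|` of the real line
`a + ℝ v`.

Proof idea: a two-stage sieve.  The cells of a barrier are the Gaussian integers `N v + τ` with
`τ` in a box of `K` columns (`K` exceeds the largest possible jump along `v`) and height of
order `2 ^ k`.  Stage one uses all primes `p ≡ 1 (mod 4)` up to `2 ^ k` not dividing the norm of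
`v`: modulo such a `p`, every cell is divisible by a prime above `p` on two residue classes of
`N` (one class if `p` divides the transversal coordinate of the cell), and a greedy choice of
the classes leaves at most the expected number of cells, which is of order `K 2 ^ k / k` by
Mertens' theorem for the progression `1 mod 4` (proved in the helper files from the
non-vanishing of the Dirichlet L-function at `1`).  Stage two spends one prime
`p ≡ 1 (mod 4)` between `2 ^ k` and `2 ^ (k + 1)` on each surviving cell; there are enough such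
primes for infinitely many `k`.  The multiplier `N` is below twice the product of the primes
used, so `log N` is of order `2 ^ k`, comparable to the height of the box.
-/

namespace Vale.Agent.Helper15.P015.LinearStrip

open Vale.Agent.Helper15.P015

theorem sq_le_two_pow (k : ℕ) (hk : 6 ≤ k) : (k + 1) ^ 2 ≤ 2 ^ k := by
  induction k, hk using Nat.le_induction with
  | base => norm_num
  | succ k hk ih =>
    have h1 : 2 ^ (k + 1) = 2 * 2 ^ k := by ring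
    rw [h1]
    nlinarith

theorem pow_thresh (K k : ℕ) (h6 : 6 ≤ k) (hK : 16 * K ≤ k) : 16 * K * (k + 1) ≤ 2 ^ k := by
  have h1 := sq_le_two_pow k h6
  have h2 : 16 * K * (k + 1) ≤ k * (k + 1) := Nat.mul_le_mul_right _ hK
  nlinarith

theorem count_arith (K Ac k Z : ℕ) (Fc Pd : ℝ) (hZ : Z = 2 ^ k / (64 * K * Ac))
    (hPd : Pd ≤ (Ac : ℝ) / ((k : ℝ) + 1))
    (hk : 16 * K * (k + 1) ≤ 2 ^ k) (hF : (2 : ℝ) ^ k ≤ 8 * ((k : ℝ) + 1) * Fc) :
    (K : ℝ) + 4 * K * Z * Pd ≤ Fc := by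
  have hk1 : (0 : ℝ) < (k : ℝ) + 1 := by positivity
  have hZ1 : Z * (64 * K * Ac) ≤ 2 ^ k := by
    rw [hZ]
    exact Nat.div_mul_le_self _ _
  have hZ2 : (Z : ℝ) * (64 * K * Ac) ≤ (2 : ℝ) ^ k := by exact_mod_cast hZ1
  have hk2 : (16 : ℝ) * K * ((k : ℝ) + 1) ≤ (2 : ℝ) ^ k := by exact_mod_cast hk
  have h1 : 4 * (K : ℝ) * Z * Pd ≤ 4 * (K : ℝ) * Z * ((Ac : ℝ) / ((k : ℝ) + 1)) :=
    mul_le_mul_of_nonneg_left hPd (by positivity)
  have h2 : 4 * (K : ℝ) * Z * ((Ac : ℝ) / ((k : ℝ) + 1))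
      = (4 * K * Z * Ac) / ((k : ℝ) + 1) := by ring
  have h3 : (4 * (K : ℝ) * Z * Ac) / ((k : ℝ) + 1) ≤ ((2 : ℝ) ^ k / 16) / ((k : ℝ) + 1) :=
    div_le_div_of_nonneg_right (by linarith) hk1.le
  have h4 : (K : ℝ) ≤ ((2 : ℝ) ^ k / 16) / ((k : ℝ) + 1) := by
    rw [le_div_iff₀ hk1]
    linarith
  have h5 : ((2 : ℝ) ^ k / 16) / ((k : ℝ) + 1) + ((2 : ℝ) ^ k / 16) / ((k : ℝ) + 1) ≤ Fc := by
    rw [← add_div, div_le_iff₀ hk1]
    linarith
  linarith

theorem width_arith (K Ac k Z : ℕ) (B Ya E : ℝ) (hK : 1 ≤ K) (hAc : 1 ≤ Ac)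
    (hZ : Z = 2 ^ k / (64 * K * Ac))
    (hk : 128 * K * Ac * (B + 1 + Ya) ≤ (2 : ℝ) ^ k)
    (hE : E ≤ B + (2 : ℝ) ^ k / (128 * K * Ac)) : Ya + E ≤ Z := by
  have hm : 0 < 64 * K * Ac := by positivity
  have hZ1 : 2 ^ k < (64 * K * Ac) * (Z + 1) := by
    rw [hZ]
    exact Nat.lt_mul_div_succ _ hm
  have hZ2 : (2 : ℝ) ^ k < (64 * K * Ac) * ((Z : ℝ) + 1) := by exact_mod_cast hZ1
  have hKr : (1 : ℝ) ≤ K := by exact_mod_cast hK
  have hAcr : (1 : ℝ) ≤ Ac := by exact_mod_cast hAc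
  have hKA : (0 : ℝ) < (K : ℝ) * Ac := by positivity
  obtain ⟨q, hq⟩ : ∃ q : ℝ, q = (2 : ℝ) ^ k / (128 * K * Ac) := ⟨_, rfl⟩
  have hq1 : q * (128 * K * Ac) = (2 : ℝ) ^ k := by
    rw [hq]
    field_simp
  rw [← hq] at hE
  have h1 : B + 1 + Ya ≤ q := by
    have h2 : ((K : ℝ) * Ac) * (128 * (B + 1 + Ya)) ≤ ((K : ℝ) * Ac) * (128 * q) := by linarith
    have h3 := le_of_mul_le_mul_left h2 hKA
    linarith
  have h4 : 2 * q < (Z : ℝ) + 1 := by
    have h5 : ((K : ℝ) * Ac) * (64 * (2 * q)) < ((K : ℝ) * Ac) * (64 * ((Z : ℝ) + 1)) := by linarith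
    have h6 := lt_of_mul_lt_mul_left h5 hKA.le
    linarith
  linarith

theorem log_bound (N k : ℕ) (hN1 : 1 ≤ N) (hN : N ≤ 2 * 4 ^ (2 ^ (k + 1))) :
    Real.log N ≤ 4 * (2 : ℝ) ^ k := by
  have hN1r : (0 : ℝ) < N := by exact_mod_cast hN1
  have hNr : (N : ℝ) ≤ 2 * (4 : ℝ) ^ (2 ^ (k + 1)) := by exact_mod_cast hN
  have h1 := Real.log_le_log hN1r hNr
  rw [Real.log_mul (by norm_num) (by positivity), Real.log_pow] at h1
  have h4 : Real.log 4 = 2 * Real.log 2 := by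
    have : (4 : ℝ) = 2 ^ 2 := by norm_num
    rw [this, Real.log_pow]
    norm_num
  have hl := Real.log_two_lt_d9
  have hl0 : 0 < Real.log 2 := Real.log_pos (by norm_num)
  have hk1 : (1 : ℝ) ≤ (2 : ℝ) ^ k := one_le_pow₀ (by norm_num)
  have hcast : ((2 ^ (k + 1) : ℕ) : ℝ) = 2 * (2 : ℝ) ^ k := by
    push_cast
    ring
  rw [hcast, h4] at h1
  have h5 : Real.log 2 * (2 : ℝ) ^ k ≤ 0.7 * (2 : ℝ) ^ k :=
    mul_le_mul_of_nonneg_right (by linarith) (by positivity)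
  linarith

theorem prim_bound (V k : ℕ) : (∏ p ∈ F1 V k, p) * (∏ p ∈ F2 k, p) ≤ 4 ^ (2 ^ (k + 1)) := by
  have hdisj : Disjoint (F1 V k) (F2 k) := by
    rw [Finset.disjoint_left]
    intro p h1 h2
    unfold F1 at h1
    unfold F2 at h2
    rw [Finset.mem_filter, Finset.mem_range] at h1
    rw [Finset.mem_filter, Finset.mem_Ico] at h2
    omega
  rw [← Finset.prod_union hdisj]
  have hsub : F1 V k ∪ F2 k ⊆ (Finset.range (2 ^ (k + 1) + 1)).filter Nat.Prime := by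
    intro p hp
    rw [Finset.mem_union] at hp
    rw [Finset.mem_filter, Finset.mem_range]
    rcases hp with h | h
    · unfold F1 at h
      rw [Finset.mem_filter, Finset.mem_range] at h
      have : 2 ^ (k + 1) = 2 * 2 ^ k := by ring
      exact ⟨by omega, h.2.1⟩
    · unfold F2 at h
      rw [Finset.mem_filter, Finset.mem_Ico] at h
      exact ⟨h.1.2, h.2.1⟩
  have hdvd : (∏ p ∈ F1 V k ∪ F2 k, p) ∣ primorial (2 ^ (k + 1)) :=
    Finset.prod_dvd_prod_of_subset _ _ (fun p => p) hsub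
  exact (Nat.le_of_dvd (primorial_pos _) hdvd).trans (primorial_le_four_pow _)

/-- Points of the region with bounded coordinate along `v` are close to the line. -/
theorem region_core (a v w : GaussianInt) (hv : v ≠ 0) (hw : w ≠ 0) (c C : ℝ) (hc0 : 0 ≤ c)
    (hc : c ≤ 1 / 2) (V Ya : ℕ) (hV : (V : ℤ) = v.norm) (hYa : (Ya : ℤ) = |Y v a|) (A : ℝ)
    (hA : (V : ℝ) ≤ A) (hX : |(X v w : ℝ)| + Ya ≤ A) (t : ℝ)
    (hreg : ‖(w : ℂ) - ((a : ℂ) + t * (v : ℂ))‖ ≤ C + c * Real.log ‖(w : ℂ)‖) :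
    |(Y v w : ℝ) - (Y v a : ℝ)| ≤ 2 * V * (|C| + c * Real.log A) := by
  obtain ⟨d, hd⟩ : ∃ d : ℝ, d = ‖(w : ℂ) - ((a : ℂ) + t * (v : ℂ))‖ := ⟨_, rfl⟩
  rw [← hd] at hreg
  have hd0 : 0 ≤ d := by rw [hd]; exact _root_.norm_nonneg _
  obtain ⟨hv1, hv2⟩ := norm_v_le v hv
  have hVr : (V : ℝ) = (v.norm : ℝ) := by exact_mod_cast hV
  have hV1 : (1 : ℝ) ≤ V := by rw [hVr]; linarith
  have hdist := dist_Y a v w t
  rw [← hd] at hdist
  have hdist' : |(Y v w : ℝ) - (Y v a : ℝ)| ≤ V * d :=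
    hdist.trans (mul_le_mul_of_nonneg_right (hVr ▸ hv2) hd0)
  have hnw0 : 0 < ‖(w : ℂ)‖ := norm_pos_iff.mpr (toComplex_ne_zero w hw)
  have hnw := norm_le_X_add_Y v w hv
  have hYabs : |(Y v w : ℝ)| ≤ Ya + V * d := abs_Y_le a v w Ya hYa _ hdist'
  have hA1 : 1 ≤ A := by linarith
  have hnwA : ‖(w : ℂ)‖ ≤ A * (1 + d) := by
    have h1 : A * (1 + d) = A + A * d := by ring
    have h2 : V * d ≤ A * d := mul_le_mul_of_nonneg_right hA hd0
    rw [h1]
    linarith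
  have hlog : Real.log ‖(w : ℂ)‖ ≤ Real.log A + d := by
    have h1 := Real.log_le_log hnw0 hnwA
    rw [Real.log_mul (by linarith) (by linarith)] at h1
    have h2 : Real.log (1 + d) ≤ d := by
      have := Real.log_le_sub_one_of_pos (by linarith : (0 : ℝ) < 1 + d)
      linarith
    linarith
  have h3 : c * Real.log ‖(w : ℂ)‖ ≤ c * (Real.log A + d) := mul_le_mul_of_nonneg_left hlog hc0
  have h4 : c * d ≤ (1 / 2) * d := mul_le_mul_of_nonneg_right hc hd0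
  have h5 := le_abs_self C
  have hd2 : d ≤ 2 * (|C| + c * Real.log A) := by linarith
  calc |(Y v w : ℝ) - (Y v a : ℝ)| ≤ V * d := hdist'
    _ ≤ V * (2 * (|C| + c * Real.log A)) := mul_le_mul_of_nonneg_left hd2 (by linarith)
    _ = 2 * V * (|C| + c * Real.log A) := by ring

theorem small_c (K Ac V : ℕ) (hK : 1 ≤ K) (hAc : 1 ≤ Ac) (hV : 1 ≤ V) :
    (0 : ℝ) < 1 / (1024 * K * Ac * V) ∧ (1 : ℝ) / (1024 * K * Ac * V) ≤ 1 / 2 := by
  have hKr : (1 : ℝ) ≤ K := by exact_mod_cast hK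
  have hAcr : (1 : ℝ) ≤ Ac := by exact_mod_cast hAc
  have hVr : (1 : ℝ) ≤ V := by exact_mod_cast hV
  have h1 : (1 : ℝ) ≤ K * Ac := one_le_mul_of_one_le_of_one_le hKr hAcr
  have h2 : (1 : ℝ) ≤ K * Ac * V := one_le_mul_of_one_le_of_one_le h1 hVr
  constructor
  · positivity
  · apply one_div_le_one_div_of_le (by norm_num)
    linarith

/-- Barriers: beyond any prescribed position there are `K` consecutive columns (in the
coordinate along `v`) containing no Gaussian prime of the region. -/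
theorem barrier (a v : GaussianInt) (hv : v ≠ 0) (V : ℕ) (hV : (V : ℤ) = v.norm) (Ac : ℕ)
    (hAc : 1 ≤ Ac)
    (hprod : ∀ k : ℕ, 1 ≤ k → ∏ p ∈ F1 V k, (1 - 2 / (p : ℝ)) ≤ (Ac : ℝ) / ((k : ℝ) + 1))
    (K : ℕ) (hK : 1 ≤ K) (C : ℝ) (R₀ : ℤ) :
    ∃ R : ℤ, R₀ ≤ R ∧ ∀ w : GaussianInt, Prime w → R < X v w → X v w ≤ R + K →
      ∀ t : ℝ, ¬ (‖(w : ℂ) - ((a : ℂ) + t * (v : ℂ))‖
        ≤ C + (1 / (1024 * K * Ac * V)) * Real.log ‖(w : ℂ)‖) := by
  have hvn : 1 ≤ v.norm := GaussianInt.norm_pos.mpr hv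
  have hV1 : 1 ≤ V := by omega
  obtain ⟨Ya, hYa⟩ : ∃ Ya : ℕ, (Ya : ℤ) = |Y v a| := ⟨(Y v a).natAbs, by simp⟩
  obtain ⟨hc0, hc2⟩ := small_c K Ac V hK hAc hV1
  obtain ⟨c, hc⟩ : ∃ c : ℝ, c = 1 / (1024 * K * Ac * V) := ⟨_, rfl⟩
  rw [← hc] at hc0 hc2 ⊢
  have hKr : (1 : ℝ) ≤ K := by exact_mod_cast hK
  have hAcr : (1 : ℝ) ≤ Ac := by exact_mod_cast hAc
  have hVr : (1 : ℝ) ≤ V := by exact_mod_cast hV1
  obtain ⟨γ, hγ⟩ : ∃ γ : ℕ, γ = V + K + Ya := ⟨_, rfl⟩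
  obtain ⟨B, hB⟩ : ∃ B : ℝ, B = 2 * V * (|C| + c * Real.log γ) := ⟨_, rfl⟩
  obtain ⟨Bq, hBq⟩ : ∃ Bq : ℝ, Bq = 128 * K * Ac * (B + 1 + Ya) := ⟨_, rfl⟩
  obtain ⟨k, hk, hmany⟩ := many_primes (6 + V + 16 * K + R₀.toNat + ⌈Bq⌉₊)
  have hk6 : 6 ≤ k := by omega
  have hkV : V ≤ k := by omega
  have hkK : 16 * K ≤ k := by omega
  have hkR : R₀.toNat ≤ k := by omega
  have hk2 : k ≤ 2 ^ k := (Nat.lt_two_pow_self).le
  have hkB : 128 * K * Ac * (B + 1 + Ya) ≤ (2 : ℝ) ^ k := by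
    have h1 : Bq ≤ (⌈Bq⌉₊ : ℝ) := Nat.le_ceil _
    have h2 : (⌈Bq⌉₊ : ℝ) ≤ (k : ℝ) := by exact_mod_cast (by omega : ⌈Bq⌉₊ ≤ k)
    have h3 : (k : ℝ) ≤ (2 : ℝ) ^ k := by exact_mod_cast hk2
    rw [← hBq]
    linarith
  obtain ⟨Z, hZ⟩ : ∃ Z : ℕ, Z = 2 ^ k / (64 * K * Ac) := ⟨_, rfl⟩
  have hF₁ : ∀ p ∈ F1 V k, p.Prime ∧ p % 4 = 1 ∧ ¬ (p : ℤ) ∣ v.norm := by
    intro p hp
    unfold F1 at hp
    rw [Finset.mem_filter] at hp
    obtain ⟨_, h1, h2, h3⟩ := hp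
    refine ⟨h1, h2, ?_⟩
    rw [← hV]
    intro hdvd
    have := Nat.le_of_dvd (by omega) (Int.natCast_dvd_natCast.mp hdvd)
    omega
  have hF₂ : ∀ p ∈ F2 k, p.Prime ∧ p % 4 = 1 ∧ ¬ (p : ℤ) ∣ v.norm := by
    intro p hp
    unfold F2 at hp
    rw [Finset.mem_filter, Finset.mem_Ico] at hp
    obtain ⟨⟨h0, _⟩, h1, h2⟩ := hp
    refine ⟨h1, h2, ?_⟩
    rw [← hV]
    intro hdvd
    have := Nat.le_of_dvd (by omega) (Int.natCast_dvd_natCast.mp hdvd)
    omega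
  have hdisj : ∀ p ∈ F1 V k, p ∉ F2 k := by
    intro p h1 h2
    unfold F1 at h1
    unfold F2 at h2
    rw [Finset.mem_filter, Finset.mem_range] at h1
    rw [Finset.mem_filter, Finset.mem_Ico] at h2
    omega
  have hinj : Function.Injective (fun τ : GaussianInt => (X v τ, Y v τ)) := by
    intro τ τ' hττ
    simp only [Prod.mk.injEq] at hττ
    exact XY_inj v hv τ τ' hττ.1 hττ.2
  obtain ⟨T, hT⟩ : ∃ T : Finset GaussianInt, T = Finset.preimage
      ((Finset.Ioc (0 : ℤ) K) ×ˢ (Finset.Icc (-(Z : ℤ)) Z))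
      (fun τ : GaussianInt => (X v τ, Y v τ)) hinj.injOn := ⟨_, rfl⟩
  have hTmem : ∀ τ, τ ∈ T ↔ (0 < X v τ ∧ X v τ ≤ K) ∧ (-(Z : ℤ) ≤ Y v τ ∧ Y v τ ≤ Z) := by
    intro τ
    rw [hT, Finset.mem_preimage, Finset.mem_product, Finset.mem_Ioc, Finset.mem_Icc]
  have hTprop : ∀ τ ∈ T, X v τ ∈ Finset.Ioc (0 : ℤ) K ∧ |Y v τ| ≤ Z := by
    intro τ hτ
    have h := (hTmem τ).mp hτ
    exact ⟨Finset.mem_Ioc.mpr h.1, abs_le.mpr h.2⟩
  have hXr : ∀ x ∈ Finset.Ioc (0 : ℤ) K, 0 < x := fun x hx => (Finset.mem_Ioc.mp hx).1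
  have hcard : (Finset.Ioc (0 : ℤ) K).card = K := by
    rw [Int.card_Ioc]
    simp
  have hcount : ((Finset.Ioc (0 : ℤ) K).card : ℝ)
      + 4 * (Finset.Ioc (0 : ℤ) K).card * Z * ∏ p ∈ F1 V k, (1 - 2 / (p : ℝ))
      ≤ (F2 k).card := by
    rw [hcard]
    exact count_arith K Ac k Z _ _ hZ (hprod k (by omega)) (pow_thresh K k hk6 hkK) hmany
  obtain ⟨N, hN1, hN2, hNkill⟩ := sieve2 v hv (F1 V k) (F2 k) hF₁ hF₂ hdisj
    (Finset.Ioc (0 : ℤ) K) hXr Z T hTprop hcount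
  have hF2ne : (F2 k).Nonempty := by
    rw [Finset.nonempty_iff_ne_empty]
    intro hemp
    have h0 : ((∅ : Finset ℕ).card : ℝ) = 0 := by simp
    rw [hemp, h0, mul_zero] at hmany
    exact absurd hmany (not_le.mpr (by positivity))
  obtain ⟨p₀, hp₀⟩ := hF2ne
  have hp₀gt : 2 ^ k < p₀ := by
    have h := hp₀
    unfold F2 at h
    rw [Finset.mem_filter, Finset.mem_Ico] at h
    omega
  have hP1pos : 0 < ∏ p ∈ F1 V k, p :=
    Nat.pos_of_ne_zero (Finset.prod_ne_zero_iff.mpr fun p hp => (hF₁ p hp).1.ne_zero)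
  have hP2pos : 0 < ∏ p ∈ F2 k, p :=
    Nat.pos_of_ne_zero (Finset.prod_ne_zero_iff.mpr fun p hp => (hF₂ p hp).1.ne_zero)
  have hp₀le : p₀ ≤ (∏ p ∈ F1 V k, p) * (∏ p ∈ F2 k, p) := by
    have h1 : p₀ ≤ ∏ p ∈ F2 k, p :=
      Nat.le_of_dvd hP2pos (Finset.dvd_prod_of_mem (fun p => p) hp₀)
    calc p₀ ≤ ∏ p ∈ F2 k, p := h1
      _ = 1 * ∏ p ∈ F2 k, p := (one_mul _).symm
      _ ≤ (∏ p ∈ F1 V k, p) * (∏ p ∈ F2 k, p) := Nat.mul_le_mul_right _ hP1pos
  have hNk : 2 ^ k < N := by omega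
  have hNpos : 1 ≤ N := by omega
  have hNub : N ≤ 2 * 4 ^ (2 ^ (k + 1)) := by
    have := prim_bound V k
    omega
  have hlogN := log_bound N k hNpos hNub
  refine ⟨(N : ℤ) * V, ?_, ?_⟩
  · have h1 : R₀ ≤ (R₀.toNat : ℤ) := Int.self_le_toNat R₀
    have h2 : R₀.toNat ≤ N := by omega
    have h2' : (R₀.toNat : ℤ) ≤ (N : ℤ) := by exact_mod_cast h2
    have h3 : (N : ℤ) * 1 ≤ N * V :=
      mul_le_mul_of_nonneg_left (by exact_mod_cast hV1) (Nat.cast_nonneg N)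
    linarith
  · intro w hw hw1 hw2 tt hreg
    obtain ⟨τ, hτ⟩ : ∃ τ : GaussianInt, w = (N : GaussianInt) * v + τ :=
      ⟨w - (N : GaussianInt) * v, by ring⟩
    have hXw : X v w = N * V + X v τ := by rw [hτ, X_cell, hV]
    have hYw : Y v w = Y v τ := by rw [hτ, Y_cell]
    obtain ⟨A, hA⟩ : ∃ A : ℝ, A = (N : ℝ) * V + K + Ya := ⟨_, rfl⟩
    have hNr : (1 : ℝ) ≤ N := by exact_mod_cast hNpos
    have hYa0 : (0 : ℝ) ≤ Ya := Nat.cast_nonneg _
    have hNV : (V : ℝ) ≤ (N : ℝ) * V := by nlinarith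
    have hAV : (V : ℝ) ≤ A := by
      rw [hA]
      linarith
    have hNV0 : (0 : ℤ) ≤ (N : ℤ) * V := by positivity
    have hXabs : |(X v w : ℝ)| + Ya ≤ A := by
      have h1 : (0 : ℝ) < (X v w : ℝ) := by
        have : (0 : ℤ) < X v w := by linarith
        exact_mod_cast this
      rw [abs_of_pos h1, hA]
      have h2 : ((X v w : ℤ) : ℝ) ≤ (((N : ℤ) * V + K : ℤ) : ℝ) := by exact_mod_cast hw2
      push_cast at h2
      linarith
    have hcore := region_core a v w hv hw.ne_zero c C hc0.le hc2 V Ya hV hYa A hAV hXabs tt hreg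
    have hγr : (γ : ℝ) = V + K + Ya := by
      rw [hγ]
      push_cast
      ring
    have hγ1 : (1 : ℝ) ≤ γ := by rw [hγr]; linarith
    have hAle : A ≤ (N : ℝ) * γ := by
      rw [hA, hγr]
      have h1 : (0 : ℝ) ≤ ((N : ℝ) - 1) * ((K : ℝ) + Ya) :=
        mul_nonneg (by linarith) (by linarith)
      nlinarith
    have hlogA : Real.log A ≤ 4 * (2 : ℝ) ^ k + Real.log γ := by
      have h1 : Real.log A ≤ Real.log ((N : ℝ) * γ) := Real.log_le_log (by linarith) hAle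
      rw [Real.log_mul (by linarith) (by linarith)] at h1
      linarith
    have hE : 2 * V * (|C| + c * Real.log A) ≤ B + (2 : ℝ) ^ k / (128 * K * Ac) := by
      have h1 : c * Real.log A ≤ c * (4 * (2 : ℝ) ^ k + Real.log γ) :=
        mul_le_mul_of_nonneg_left hlogA hc0.le
      have h2 : 2 * (V : ℝ) * (|C| + c * Real.log A)
          ≤ 2 * V * (|C| + c * (4 * (2 : ℝ) ^ k + Real.log γ)) := by
        apply mul_le_mul_of_nonneg_left _ (by linarith)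
        linarith
      have h3 : 2 * (V : ℝ) * (|C| + c * (4 * (2 : ℝ) ^ k + Real.log γ))
          = B + (2 : ℝ) ^ k / (128 * K * Ac) := by
        rw [hB, hc]
        field_simp
        ring
      linarith
    have hwidth := width_arith K Ac k Z B Ya _ hK hAc hZ hkB (hcore.trans hE)
    have hYabs : |(Y v w : ℝ)| ≤ Z := by
      have := abs_Y_le a v w Ya hYa _ (le_refl |(Y v w : ℝ) - (Y v a : ℝ)|)
      linarith
    have hYint : |Y v w| ≤ (Z : ℤ) := by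
      have : ((|Y v w| : ℤ) : ℝ) ≤ ((Z : ℤ) : ℝ) := by
        push_cast
        exact hYabs
      exact_mod_cast this
    rw [abs_le] at hYint
    have hτT : τ ∈ T := by
      rw [hTmem]
      refine ⟨⟨by linarith, by linarith⟩, by linarith, by linarith⟩
    have := hNkill τ hτT
    rw [← hτ] at this
    exact this hw

/-- Between two positions along the line the region is bounded. -/
theorem region_bounded (a v : GaussianInt) (hv : v ≠ 0) (c C : ℝ) (hc0 : 0 ≤ c) (hc : c ≤ 1 / 2)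
    (Rm : ℕ) :
    ∃ Hb : ℕ, ∀ w : GaussianInt, w ≠ 0 → |X v w| ≤ (Rm : ℤ) → ∀ t : ℝ,
      ‖(w : ℂ) - ((a : ℂ) + t * (v : ℂ))‖ ≤ C + c * Real.log ‖(w : ℂ)‖ →
      |Y v w - Y v a| ≤ (Hb : ℤ) := by
  have hvn : 1 ≤ v.norm := GaussianInt.norm_pos.mpr hv
  obtain ⟨V, hV⟩ : ∃ V : ℕ, (V : ℤ) = v.norm := ⟨v.norm.natAbs, Int.natAbs_of_nonneg (by linarith)⟩
  obtain ⟨Ya, hYa⟩ : ∃ Ya : ℕ, (Ya : ℤ) = |Y v a| := ⟨(Y v a).natAbs, by simp⟩
  obtain ⟨A, hA⟩ : ∃ A : ℝ, A = Rm + Ya + V := ⟨_, rfl⟩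
  obtain ⟨Q, hQ⟩ : ∃ Q : ℝ, Q = 2 * V * (|C| + c * Real.log A) := ⟨_, rfl⟩
  refine ⟨⌈Q⌉₊, ?_⟩
  intro w hw hX t hreg
  have hXabs : |(X v w : ℝ)| ≤ Rm := by
    have : ((|X v w| : ℤ) : ℝ) ≤ ((Rm : ℤ) : ℝ) := by exact_mod_cast hX
    push_cast at this
    exact this
  have hRm0 : (0 : ℝ) ≤ Rm := Nat.cast_nonneg _
  have hYa0 : (0 : ℝ) ≤ Ya := Nat.cast_nonneg _
  have hV0 : (0 : ℝ) ≤ V := Nat.cast_nonneg _
  have hcore := region_core a v w hv hw c C hc0 hc V Ya hV hYa A (by rw [hA]; linarith)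
    (by rw [hA]; linarith) t hreg
  rw [← hQ] at hcore
  have h1 : Q ≤ (⌈Q⌉₊ : ℝ) := Nat.le_ceil _
  have h2 : ((|Y v w - Y v a| : ℤ) : ℝ) ≤ ((⌈Q⌉₊ : ℤ) : ℝ) := by
    push_cast
    linarith
  exact_mod_cast h2

/-- **No bounded-step walk on Gaussian primes inside a strip of logarithmic width around a line
with Gaussian-integer direction.**  Let `v ≠ 0` be a Gaussian integer and `D` a real number.
There is `c > 0` such that for every Gaussian integer `a` and every real `C` there is no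
sequence of pairwise distinct Gaussian primes `z 0, z 1, …` with `|z (n + 1) - z n| ≤ D` for
all `n`, every term of which is within distance `C + c log |z n|` of some point `a + t v`
(`t` real) of the line through `a` with direction `v`. -/
theorem result (v : GaussianInt) (hv : v ≠ 0) (D : ℝ) :
    ∃ c : ℝ, 0 < c ∧ ∀ (a : GaussianInt) (C : ℝ) (z : ℕ → GaussianInt),
      Function.Injective z → (∀ n, Prime (z n)) →
      (∀ n, ‖((z (n + 1) : GaussianInt) : ℂ) - ((z n : GaussianInt) : ℂ)‖ ≤ D) →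
      (∀ n, ∃ t : ℝ, ‖((z n : GaussianInt) : ℂ) - ((a : ℂ) + t * (v : ℂ))‖
        ≤ C + c * Real.log ‖((z n : GaussianInt) : ℂ)‖) → False := by
  have hvn : 1 ≤ v.norm := GaussianInt.norm_pos.mpr hv
  obtain ⟨V, hV⟩ : ∃ V : ℕ, (V : ℤ) = v.norm := ⟨v.norm.natAbs, Int.natAbs_of_nonneg (by linarith)⟩
  have hV1 : 1 ≤ V := by omega
  obtain ⟨Ac, hAc, hprod⟩ := prod_bound V
  obtain ⟨K, hK⟩ : ∃ K : ℕ, K = ⌈(v.norm : ℝ) * D⌉₊ + 1 := ⟨_, rfl⟩
  have hK1 : 1 ≤ K := by omega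
  obtain ⟨hc0, hc2⟩ := small_c K Ac V hK1 hAc hV1
  obtain ⟨c, hc⟩ : ∃ c : ℝ, c = 1 / (1024 * K * Ac * V) := ⟨_, rfl⟩
  rw [← hc] at hc0 hc2
  refine ⟨c, hc0, ?_⟩
  intro a C z hinj hprime hstep hreg
  have hnvc : (((-v : GaussianInt) : GaussianInt) : ℂ) = -((v : GaussianInt) : ℂ) := by
    rw [GaussianInt.toComplex_neg]
  have hz0 : ∀ n, z n ≠ 0 := fun n => (hprime n).ne_zero
  have hD1 : 1 ≤ D := by
    have h1 : z 1 - z 0 ≠ 0 := sub_ne_zero.mpr (hinj.ne (by norm_num))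
    have h2 := one_le_norm_of_ne_zero _ h1
    rw [GaussianInt.toComplex_sub] at h2
    exact h2.trans (hstep 0)
  obtain ⟨hv1, hv2⟩ := norm_v_le v hv
  have hKge : (v.norm : ℝ) * D ≤ K := by
    rw [hK]
    push_cast
    have := Nat.le_ceil ((v.norm : ℝ) * D)
    linarith
  have hstepX : ∀ n, |X v (z (n + 1)) - X v (z n)| ≤ (K : ℤ) := by
    intro n
    have h1 := step_X v (z n) (z (n + 1)) D (hstep n)
    have h2 : ‖(v : ℂ)‖ * D ≤ (v.norm : ℝ) * D :=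
      mul_le_mul_of_nonneg_right hv2 (by linarith)
    have h3 : ((|X v (z (n + 1)) - X v (z n)| : ℤ) : ℝ) ≤ ((K : ℤ) : ℝ) := by
      push_cast
      linarith
    exact_mod_cast h3
  have hVneg : (V : ℤ) = (-v).norm := by rw [hV, Zsqrtd.norm_neg]
  obtain ⟨R₁, hR₁, hbar₁⟩ := barrier a v hv V hV Ac hAc hprod K hK1 C (X v (z 0))
  obtain ⟨R₂, hR₂, hbar₂⟩ := barrier a (-v) (neg_ne_zero.mpr hv) V hVneg Ac hAc hprod K hK1 C
    (X (-v) (z 0))
  rw [← hc] at hbar₁ hbar₂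
  have hinv : ∀ n, X v (z n) ≤ R₁ ∧ X (-v) (z n) ≤ R₂ := by
    intro n
    induction n with
    | zero => exact ⟨hR₁, hR₂⟩
    | succ n ih =>
      have hs := hstepX n
      rw [abs_le] at hs
      constructor
      · by_contra hcon
        rw [not_le] at hcon
        obtain ⟨t, ht⟩ := hreg (n + 1)
        exact hbar₁ (z (n + 1)) (hprime (n + 1)) hcon (by linarith [ih.1]) t ht
      · by_contra hcon
        rw [not_le] at hcon
        obtain ⟨t, ht⟩ := hreg (n + 1)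
        have hX1 := X_neg v (z (n + 1))
        have hX2 := X_neg v (z n)
        refine hbar₂ (z (n + 1)) (hprime (n + 1)) hcon (by linarith [ih.2]) (-t) ?_
        rw [hnvc]
        have h1 : ((a : ℂ) + ((-t : ℝ) : ℂ) * -((v : GaussianInt) : ℂ))
            = (a : ℂ) + (t : ℂ) * (v : ℂ) := by
          push_cast
          ring
        rw [h1]
        exact ht
  obtain ⟨Rm, hRm⟩ : ∃ Rm : ℕ, Rm = (max R₁ R₂).toNat := ⟨_, rfl⟩
  obtain ⟨Hb, hHb⟩ := region_bounded a v hv c C hc0.le hc2 Rm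
  have hXY : Function.Injective (fun τ : GaussianInt => (X v τ, Y v τ)) := by
    intro τ τ' hττ
    simp only [Prod.mk.injEq] at hττ
    exact XY_inj v hv τ τ' hττ.1 hττ.2
  have hfin : (Set.range z).Finite := by
    apply Set.Finite.subset (Set.Finite.preimage hXY.injOn
      ((Set.finite_Icc (-(Rm : ℤ)) Rm).prod (Set.finite_Icc (Y v a - Hb) (Y v a + Hb))))
    rintro _ ⟨n, rfl⟩
    have h1 := hinv n
    have hXn : |X v (z n)| ≤ (Rm : ℤ) := by
      have hX2 := X_neg v (z n)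
      rw [abs_le, hRm]
      have h3 : max R₁ R₂ ≤ ((max R₁ R₂).toNat : ℤ) := Int.self_le_toNat _
      have h4 := le_max_left R₁ R₂
      have h5 := le_max_right R₁ R₂
      constructor <;> linarith [h1.1, h1.2]
    obtain ⟨t, ht⟩ := hreg n
    have hYn := hHb (z n) (hz0 n) hXn t ht
    rw [abs_le] at hXn hYn
    simp only [Set.mem_preimage, Set.mem_prod, Set.mem_Icc]
    exact ⟨⟨hXn.1, hXn.2⟩, by linarith [hYn.1], by linarith [hYn.2]⟩
  exact (Set.infinite_range_of_injective hinj) hfin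

end Vale.Agent.Helper15.P015.LinearStrip
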