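import Mathlib
import Vale.Agent.Helper15.P015.Primes
import Vale.Agent.Helper15.P015.Gauss
import Vale.Agent.Helper15.P015.Sieve
import Vale.Agent.Helper15.P015.LinearStrip

/-!
# P015: barriers across the logarithmic strip around a line of irrational slope

Helper file for the hand-in `EveryLineLogStrip`.  The main statement is `barrier_irr`: for an
irrational slope `α` with `|α| ≤ 1`, beyond any abscissa there are `K` consecutive columns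
containing no Gaussian prime `w` with `|im w - α re w - β| ≤ C + c log |w|`, where
`c = 1 / (10368 K Ac)`.  It combines the two-stage sieve (in the translation-invariant form
`sieve3`), a supply of primes `p ≡ 1 (mod 4)` in dyadic blocks, and inhomogeneous Diophantine
approximation with a convergent denominator of the slope.
-/

namespace Vale.Agent.Helper15.P015.Irr

open Vale.Agent.Helper15.P015

theorem lin_le_two_pow (k : ℕ) (hk : 11 ≤ k) : 128 * k ≤ 2 ^ k := by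
  induction k, hk using Nat.le_induction with
  | base => norm_num
  | succ k hk ih =>
    have h1 : 2 ^ (k + 1) = 2 * 2 ^ k := by ring
    rw [h1]
    omega

theorem pow_div_mono (k j : ℕ) (hkj : k ≤ j) :
    (2 : ℝ) ^ k * ((j : ℝ) + 1) ≤ (2 : ℝ) ^ j * ((k : ℝ) + 1) := by
  induction j, hkj using Nat.le_induction with
  | base => exact le_rfl
  | succ j hj ih =>
    have h1 : (2 : ℝ) ^ (j + 1) = 2 * 2 ^ j := by ring
    rw [h1]
    push_cast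
    have h2 : (0 : ℝ) ≤ (2 : ℝ) ^ k := by positivity
    have hj0 : (0 : ℝ) ≤ j := Nat.cast_nonneg j
    nlinarith [mul_nonneg h2 hj0]

/-- Inhomogeneous approximation from a good rational approximation. -/
theorem inhom (α γ : ℝ) (a : ℤ) (q : ℕ) (hq : 1 ≤ q) (hcop : Int.gcd a q = 1)
    (happ : |α - (a : ℝ) / q| < 1 / (q : ℝ) ^ 2) :
    ∃ m : ℕ, 1 ≤ m ∧ m ≤ q ∧ ∃ n : ℤ, |(m : ℝ) * α + γ - n| ≤ 3 / (2 * (q : ℝ)) := by
  obtain ⟨r, hr⟩ : ∃ r : ℤ, r = round (-(γ * q)) := ⟨_, rfl⟩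
  have hround : |-(γ * q) - (r : ℝ)| ≤ 1 / 2 := by
    rw [hr]
    exact abs_sub_round _
  have hbez : (1 : ℤ) = a * Int.gcdA a q + q * Int.gcdB a q := by
    have := Int.gcd_eq_gcd_ab a q
    rw [hcop] at this
    exact_mod_cast this
  obtain ⟨x, hx⟩ : ∃ x : ℤ, x = Int.gcdA a q := ⟨_, rfl⟩
  have hq0 : (0 : ℤ) < q := by exact_mod_cast hq
  obtain ⟨m₀, hm₀⟩ : ∃ m₀ : ℤ, m₀ = (r * x) % q := ⟨_, rfl⟩
  have hm₀0 : 0 ≤ m₀ := by
    rw [hm₀]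
    exact Int.emod_nonneg _ hq0.ne'
  have hm₀q : m₀ < q := by
    rw [hm₀]
    exact Int.emod_lt_of_pos _ hq0
  have hdvd₀ : (q : ℤ) ∣ m₀ * a - r := by
    have h1 : m₀ = r * x - q * ((r * x) / q) := by
      rw [hm₀]
      have := Int.emod_add_mul_ediv (r * x) q
      linarith
    refine ⟨-(r * Int.gcdB a q) - ((r * x) / q) * a, ?_⟩
    rw [h1]
    have h2 : a * x = 1 - q * Int.gcdB a q := by
      rw [hx]
      linarith
    calc (r * x - q * ((r * x) / q)) * a - r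
        = r * (a * x) - q * ((r * x) / q) * a - r := by ring
      _ = r * (1 - q * Int.gcdB a q) - q * ((r * x) / q) * a - r := by rw [h2]
      _ = q * (-(r * Int.gcdB a q) - ((r * x) / q) * a) := by ring
  obtain ⟨m, hm1, hmq, hmdvd⟩ : ∃ m : ℤ, 1 ≤ m ∧ m ≤ q ∧ (q : ℤ) ∣ m * a - r := by
    by_cases h0 : m₀ = 0
    · refine ⟨q, by omega, le_rfl, ?_⟩
      rw [h0] at hdvd₀
      have : (q : ℤ) * a - r = (0 * a - r) + q * a := by ring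
      rw [this]
      exact dvd_add hdvd₀ (dvd_mul_right _ _)
    · exact ⟨m₀, by omega, hm₀q.le, hdvd₀⟩
  obtain ⟨n₀, hn₀⟩ := hmdvd
  refine ⟨m.toNat, by omega, by omega, n₀, ?_⟩
  have hmc : ((m.toNat : ℕ) : ℝ) = (m : ℝ) := by
    have : ((m.toNat : ℕ) : ℤ) = m := Int.toNat_of_nonneg (by omega)
    exact_mod_cast this
  rw [hmc]
  have hqr : (0 : ℝ) < q := by exact_mod_cast hq
  have hn₀r : (m : ℝ) * a - r = q * n₀ := by exact_mod_cast hn₀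
  have h3 : (m : ℝ) * a / q - r / q = n₀ := by
    rw [← sub_div, hn₀r]
    field_simp
  have h4 : ((r : ℝ) + γ * q) / q = r / q + γ := by field_simp
  have h5 : (m : ℝ) * (α - a / q) = m * α - m * a / q := by ring
  have hdecomp : (m : ℝ) * α + γ - n₀ = m * (α - a / q) + ((r : ℝ) + γ * q) / q := by
    rw [h4, h5]
    linarith
  rw [hdecomp]
  have hm0 : (0 : ℝ) ≤ m := by exact_mod_cast (by omega : (0 : ℤ) ≤ m)
  have hmqr : (m : ℝ) ≤ q := by exact_mod_cast hmq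
  have hb1 : |(m : ℝ) * (α - a / q)| ≤ 1 / q := by
    rw [abs_mul, abs_of_nonneg hm0]
    have h6 : (m : ℝ) * |α - a / q| ≤ q * (1 / (q : ℝ) ^ 2) :=
      mul_le_mul hmqr happ.le (abs_nonneg _) hqr.le
    have h7 : (q : ℝ) * (1 / (q : ℝ) ^ 2) = 1 / q := by
      field_simp
    linarith
  have hb2 : |((r : ℝ) + γ * q) / q| ≤ (1 / 2) / q := by
    rw [abs_div, abs_of_pos hqr]
    apply div_le_div_of_nonneg_right _ hqr.le
    have : (r : ℝ) + γ * q = -(-(γ * q) - r) := by ring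
    rw [this, abs_neg]
    exact hround
  have hsum : 1 / (q : ℝ) + (1 / 2) / q = 3 / (2 * (q : ℝ)) := by
    field_simp
    ring
  calc |(m : ℝ) * (α - a / q) + ((r : ℝ) + γ * q) / q|
      ≤ |(m : ℝ) * (α - a / q)| + |((r : ℝ) + γ * q) / q| := abs_add_le _ _
    _ ≤ 1 / q + (1 / 2) / q := add_le_add hb1 hb2
    _ = 3 / (2 * (q : ℝ)) := hsum

/-- An irrational number has good rational approximations with arbitrarily large
denominators. -/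
theorem exists_good_approx (α : ℝ) (hα : Irrational α) (Q₀ : ℕ) :
    ∃ (a : ℤ) (q : ℕ), Q₀ ≤ q ∧ 1 ≤ q ∧ Int.gcd a q = 1 ∧
      |α - (a : ℝ) / q| < 1 / (q : ℝ) ^ 2 := by
  obtain ⟨ε, hε⟩ : ∃ ε : ℕ → ℝ, ε = fun d : ℕ => |(d : ℝ) * α - round ((d : ℝ) * α)| := ⟨_, rfl⟩
  have hεpos : ∀ d : ℕ, 1 ≤ d → 0 < ε d := by
    intro d hd
    rw [hε]
    apply abs_pos.mpr
    have hirr : Irrational ((d : ℝ) * α) := hα.natCast_mul (by omega)
    exact sub_ne_zero.mpr (hirr.ne_int _)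
  obtain ⟨n, hn⟩ : ∃ n : ℕ, n = ∑ d ∈ Finset.range Q₀, ⌈1 / ε d⌉₊ + 1 := ⟨_, rfl⟩
  have hn_pos : 0 < n := by omega
  obtain ⟨r, hr1, hr2⟩ := Real.exists_rat_abs_sub_le_and_den_le α hn_pos
  have hden : 1 ≤ r.den := r.pos
  have hdenr : (0 : ℝ) < r.den := by exact_mod_cast hden
  have hcast : (r : ℝ) = (r.num : ℝ) / r.den := Rat.cast_def r
  have hnr : (0 : ℝ) < (n : ℝ) + 1 := by positivity
  refine ⟨r.num, r.den, ?_, hden, ?_, ?_⟩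
  · by_contra hlt
    rw [not_le] at hlt
    have hmem : r.den ∈ Finset.range Q₀ := Finset.mem_range.mpr hlt
    have h1 : ⌈1 / ε r.den⌉₊ ≤ ∑ d ∈ Finset.range Q₀, ⌈1 / ε d⌉₊ :=
      Finset.single_le_sum (f := fun d => ⌈1 / ε d⌉₊) (fun _ _ => Nat.zero_le _) hmem
    have h2 : 1 / ε r.den ≤ (n : ℝ) := by
      have h3 : 1 / ε r.den ≤ (⌈1 / ε r.den⌉₊ : ℝ) := Nat.le_ceil _
      have h4 : ((⌈1 / ε r.den⌉₊ : ℕ) : ℝ) ≤ (n : ℝ) := by
        have : ⌈1 / ε r.den⌉₊ ≤ n := by omega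
        exact_mod_cast this
      linarith
    have hε0 := hεpos r.den hden
    have h5 : ε r.den ≤ 1 / ((n : ℝ) + 1) := by
      have h6 : ε r.den ≤ |(r.den : ℝ) * α - (r.num : ℝ)| := by
        rw [hε]
        exact round_le _ _
      have h7 : |(r.den : ℝ) * α - (r.num : ℝ)| = r.den * |α - r| := by
        rw [hcast, ← abs_of_pos hdenr, ← abs_mul, abs_of_pos hdenr]
        congr 1
        field_simp
      have h8 : (r.den : ℝ) * |α - r| ≤ r.den * (1 / (((n : ℝ) + 1) * r.den)) :=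
        mul_le_mul_of_nonneg_left hr1 hdenr.le
      have h9 : (r.den : ℝ) * (1 / (((n : ℝ) + 1) * r.den)) = 1 / ((n : ℝ) + 1) := by
        field_simp
      linarith
    have h10 : 1 ≤ ε r.den * (n : ℝ) := by
      rw [div_le_iff₀ hε0] at h2
      linarith
    have h11 : ε r.den * ((n : ℝ) + 1) ≤ 1 := by
      rw [le_div_iff₀ hnr] at h5
      exact h5
    linarith
  · have := r.reduced
    simpa [Int.gcd] using this
  · rw [← hcast]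
    refine lt_of_le_of_lt hr1 ?_
    have hle : (r.den : ℝ) ≤ n := by exact_mod_cast hr2
    rw [div_lt_div_iff₀ (by positivity) (by positivity)]
    nlinarith

theorem scale_choice (k₀ q : ℕ) (hq : 2 ^ (19 * 2 ^ (k₀ + 1)) ≤ q) :
    ∃ k : ℕ, k₀ < k ∧ 2 ^ (19 * 2 ^ k) ≤ q ∧ Real.log q ≤ 27 * (2 : ℝ) ^ k := by
  have hq0 : q ≠ 0 := by
    have : 0 < 2 ^ (19 * 2 ^ (k₀ + 1)) := by positivity
    omega
  obtain ⟨L, hL⟩ : ∃ L : ℕ, L = Nat.log 2 q := ⟨_, rfl⟩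
  have hL1 : 19 * 2 ^ (k₀ + 1) ≤ L := by
    rw [hL]
    exact (Nat.le_log_iff_pow_le (by norm_num) hq0).mpr hq
  have hL2 : 2 ^ L ≤ q := by
    rw [hL]
    exact Nat.pow_log_le_self 2 hq0
  have hL3 : q < 2 ^ (L + 1) := by
    rw [hL]
    exact Nat.lt_pow_succ_log_self (by norm_num) q
  obtain ⟨k, hk⟩ : ∃ k : ℕ, k = Nat.log 2 (L / 19) := ⟨_, rfl⟩
  have hdiv : 2 ^ (k₀ + 1) ≤ L / 19 := by
    rw [Nat.le_div_iff_mul_le (by norm_num)]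
    omega
  have hdiv0 : L / 19 ≠ 0 := by
    have : 0 < 2 ^ (k₀ + 1) := by positivity
    omega
  have hk1 : k₀ + 1 ≤ k := by
    rw [hk]
    exact (Nat.le_log_iff_pow_le (by norm_num) hdiv0).mpr hdiv
  have hk2 : 2 ^ k ≤ L / 19 := by
    rw [hk]
    exact Nat.pow_log_le_self 2 hdiv0
  have hk3 : L / 19 < 2 ^ (k + 1) := by
    rw [hk]
    exact Nat.lt_pow_succ_log_self (by norm_num) _
  have hk2' : 19 * 2 ^ k ≤ L := by
    have := (Nat.le_div_iff_mul_le (by norm_num : 0 < 19)).mp hk2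
    omega
  have hk3' : L < 19 * 2 ^ (k + 1) := by
    have := (Nat.div_lt_iff_lt_mul (by norm_num : 0 < 19)).mp hk3
    omega
  refine ⟨k, by omega, ?_, ?_⟩
  · exact (Nat.pow_le_pow_right (by norm_num) hk2').trans hL2
  · have h1 : q ≤ 2 ^ (19 * 2 ^ (k + 1)) := by
      have : 2 ^ (L + 1) ≤ 2 ^ (19 * 2 ^ (k + 1)) :=
        Nat.pow_le_pow_right (by norm_num) (by omega)
      omega
    have h2 : (q : ℝ) ≤ (2 : ℝ) ^ (19 * 2 ^ (k + 1)) := by exact_mod_cast h1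
    have hq1 : (0 : ℝ) < q := by exact_mod_cast Nat.pos_of_ne_zero hq0
    have h3 := Real.log_le_log hq1 h2
    rw [Real.log_pow] at h3
    have hl := Real.log_two_lt_d9
    have hcast : ((19 * 2 ^ (k + 1) : ℕ) : ℝ) = 38 * (2 : ℝ) ^ k := by
      push_cast
      ring
    rw [hcast] at h3
    have h4 : 38 * (2 : ℝ) ^ k * Real.log 2 ≤ 38 * (2 : ℝ) ^ k * 0.7 :=
      mul_le_mul_of_nonneg_left (by linarith) (by positivity)
    linarith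

theorem X_one (w : GaussianInt) : X 1 w = w.re := by
  simp [X]

theorem Y_one (w : GaussianInt) : Y 1 w = w.im := by
  simp [Y]

theorem prod_F1_le (V k : ℕ) : ∏ p ∈ F1 V k, p ≤ 4 ^ (2 ^ k) := by
  have hsub : F1 V k ⊆ (Finset.range (2 ^ k + 1)).filter Nat.Prime := by
    intro p hp
    unfold F1 at hp
    rw [Finset.mem_filter] at hp
    rw [Finset.mem_filter]
    exact ⟨hp.1, hp.2.1⟩
  have hdvd : (∏ p ∈ F1 V k, p) ∣ primorial (2 ^ k) :=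
    Finset.prod_dvd_prod_of_subset _ _ (fun p => p) hsub
  exact (Nat.le_of_dvd (primorial_pos _) hdvd).trans (primorial_le_four_pow _)

theorem prod_le_pow_card' (F : Finset ℕ) (B : ℕ) (h : ∀ p ∈ F, p ≤ B) :
    ∏ p ∈ F, p ≤ B ^ F.card := by
  classical
  induction F using Finset.induction_on with
  | empty => simp
  | insert q F hq ih =>
    rw [Finset.prod_insert hq, Finset.card_insert_of_notMem hq, pow_succ, mul_comm]
    exact Nat.mul_le_mul (ih fun p hp => h p (Finset.mem_insert_of_mem hp))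
      (h q (Finset.mem_insert_self q F))

/-- Size of the second-stage prime set and of its product. -/
theorem card_arith (K Ac k Z n₂ : ℕ) (hZ : Z = 2 ^ k / (64 * K * Ac))
    (hk : 16 * K * (k + 1) ≤ 2 ^ k) (hk2 : 128 * k ≤ 2 ^ k)
    (hn₂ : n₂ = ⌈(K : ℝ) + 4 * K * Z * ((Ac : ℝ) / ((k : ℝ) + 1))⌉₊) :
    (K : ℝ) + 4 * K * Z * ((Ac : ℝ) / ((k : ℝ) + 1)) ≤ (2 : ℝ) ^ k / (8 * ((k : ℝ) + 1)) ∧
      128 * k * n₂ ≤ 17 * 2 ^ k := by
  have hk1 : (0 : ℝ) < (k : ℝ) + 1 := by positivity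
  have hfc : (2 : ℝ) ^ k ≤ 8 * ((k : ℝ) + 1) * ((2 : ℝ) ^ k / (8 * ((k : ℝ) + 1))) := by
    apply le_of_eq
    field_simp
  have hneed := Vale.Agent.Helper15.P015.LinearStrip.count_arith K Ac k Z ((2 : ℝ) ^ k / (8 * ((k : ℝ) + 1)))
    ((Ac : ℝ) / ((k : ℝ) + 1)) hZ le_rfl hk hfc
  refine ⟨hneed, ?_⟩
  have hx0 : (0 : ℝ) ≤ (K : ℝ) + 4 * K * Z * ((Ac : ℝ) / ((k : ℝ) + 1)) := by positivity
  have hceil : (n₂ : ℝ) < (K : ℝ) + 4 * K * Z * ((Ac : ℝ) / ((k : ℝ) + 1)) + 1 := by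
    rw [hn₂]
    exact Nat.ceil_lt_add_one hx0
  have hn₂' : (n₂ : ℝ) ≤ (2 : ℝ) ^ k / (8 * ((k : ℝ) + 1)) + 1 := by linarith
  have hk0 : (0 : ℝ) ≤ k := Nat.cast_nonneg k
  have hk2r : (128 : ℝ) * k ≤ (2 : ℝ) ^ k := by exact_mod_cast hk2
  have h1 : (128 : ℝ) * k * n₂ ≤ 128 * k * ((2 : ℝ) ^ k / (8 * ((k : ℝ) + 1)) + 1) :=
    mul_le_mul_of_nonneg_left hn₂' (by positivity)
  have h2 : (128 : ℝ) * k * ((2 : ℝ) ^ k / (8 * ((k : ℝ) + 1)))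
      = 16 * (2 : ℝ) ^ k * ((k : ℝ) / ((k : ℝ) + 1)) := by
    field_simp
    ring
  have h3 : (k : ℝ) / ((k : ℝ) + 1) ≤ 1 := by
    rw [div_le_one hk1]
    linarith
  have h4 : 16 * (2 : ℝ) ^ k * ((k : ℝ) / ((k : ℝ) + 1)) ≤ 16 * (2 : ℝ) ^ k * 1 :=
    mul_le_mul_of_nonneg_left h3 (by positivity)
  have h5 : (128 : ℝ) * k * n₂ ≤ 17 * (2 : ℝ) ^ k := by
    have h6 : (128 : ℝ) * k * ((2 : ℝ) ^ k / (8 * ((k : ℝ) + 1)) + 1)
        = 128 * k * ((2 : ℝ) ^ k / (8 * ((k : ℝ) + 1))) + 128 * k := by ring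
    linarith
  exact_mod_cast h5

theorem norm_bound_arith (q K β C : ℝ) (hq : 16 ≤ q) (hK0 : 0 ≤ K) (hK : K ≤ q) (hβ : |β| ≤ q)
    (hC : |C| ≤ q) : 4 * (q ^ 2 + q + K) + 2 * |β| + 2 * |C| ≤ q ^ 3 := by
  have h1 : 16 * q ^ 2 ≤ q ^ 3 := by nlinarith [sq_nonneg q]
  nlinarith [sq_nonneg q]

theorem small_c' (K Ac : ℕ) (hK : 1 ≤ K) (hAc : 1 ≤ Ac) :
    (0 : ℝ) < 1 / (10368 * K * Ac) ∧ (1 : ℝ) / (10368 * K * Ac) ≤ 1 / 2 := by
  have hKr : (1 : ℝ) ≤ K := by exact_mod_cast hK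
  have hAcr : (1 : ℝ) ≤ Ac := by exact_mod_cast hAc
  have h1 : (1 : ℝ) ≤ K * Ac := one_le_mul_of_one_le_of_one_le hKr hAcr
  constructor
  · positivity
  · apply one_div_le_one_div_of_le (by norm_num)
    linarith

/-- The size of a point of the region in the barrier columns. -/
theorem log_norm_bound (w : GaussianInt) (hw : w ≠ 0) (α β c C : ℝ) (hα1 : |α| ≤ 1)
    (hc0 : 0 ≤ c) (hc : c ≤ 1 / 2) (A : ℝ) (hre0 : 0 ≤ (w.re : ℝ)) (hre : (w.re : ℝ) ≤ A)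
    (hreg : |(w.im : ℝ) - α * w.re - β| ≤ C + c * Real.log ‖(w : ℂ)‖) :
    ‖(w : ℂ)‖ ≤ 4 * A + 2 * |β| + 2 * |C| := by
  have hnw1 : 1 ≤ ‖(w : ℂ)‖ := one_le_norm_of_ne_zero w hw
  have hnw := norm_le_X_add_Y 1 w one_ne_zero
  rw [X_one, Y_one] at hnw
  have hlog : Real.log ‖(w : ℂ)‖ ≤ ‖(w : ℂ)‖ := by
    have := Real.log_le_sub_one_of_pos (by linarith : (0 : ℝ) < ‖(w : ℂ)‖)
    linarith
  have hlog0 : 0 ≤ Real.log ‖(w : ℂ)‖ := Real.log_nonneg hnw1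
  have hcl : c * Real.log ‖(w : ℂ)‖ ≤ (1 / 2) * ‖(w : ℂ)‖ := by
    calc c * Real.log ‖(w : ℂ)‖ ≤ (1 / 2) * Real.log ‖(w : ℂ)‖ :=
          mul_le_mul_of_nonneg_right hc hlog0
      _ ≤ (1 / 2) * ‖(w : ℂ)‖ := mul_le_mul_of_nonneg_left hlog (by norm_num)
  have hαre : |α * (w.re : ℝ)| ≤ (w.re : ℝ) := by
    rw [abs_mul, abs_of_nonneg hre0]
    calc |α| * (w.re : ℝ) ≤ 1 * (w.re : ℝ) := mul_le_mul_of_nonneg_right hα1 hre0
      _ = (w.re : ℝ) := one_mul _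
  have him : |(w.im : ℝ)| ≤ (C + c * Real.log ‖(w : ℂ)‖) + (w.re : ℝ) + |β| := by
    have h1 : (w.im : ℝ) = ((w.im : ℝ) - α * w.re - β) + α * w.re + β := by ring
    have h2 := abs_add_le (((w.im : ℝ) - α * w.re - β) + α * w.re) β
    have h3 := abs_add_le ((w.im : ℝ) - α * w.re - β) (α * w.re)
    rw [← h1] at h2
    linarith
  have hC := le_abs_self C
  rw [abs_of_nonneg hre0] at hnw
  linarith

theorem norm_gt_sq (w : GaussianInt) (p : ℕ) (h : (p : ℤ) < w.re) : (p : ℤ) ^ 2 < w.norm := by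
  have h3 : (0 : ℤ) ≤ p := Nat.cast_nonneg p
  have h4 : w.norm = w.re * w.re + w.im * w.im := by
    simp [Zsqrtd.norm_def]
  rw [h4]
  nlinarith [mul_self_nonneg w.im]

/-- The sieve at scale `k`: a modulus `P` of controlled size and a residue `M` such that the
norm of every cell `M + τ` of the box is divisible by a prime factor of `P`. -/
theorem sieve_data (Ac : ℕ) (hAc : 1 ≤ Ac)
    (hprod : ∀ k : ℕ, 1 ≤ k → ∏ p ∈ F1 1 k, (1 - 2 / (p : ℝ)) ≤ (Ac : ℝ) / ((k : ℝ) + 1))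
    (k₁ : ℕ) (hsup : ∀ k : ℕ, k₁ ≤ k → ∃ j : ℕ, k ≤ j ∧ j < 128 * k ∧
      (2 : ℝ) ^ j ≤ 8 * ((j : ℝ) + 1) * ((F2 j).card : ℝ))
    (K : ℕ) (hK : 1 ≤ K) (k : ℕ) (hkk₁ : k₁ ≤ k) (hk11 : 11 ≤ k) (hkK : 16 * K ≤ k) :
    ∃ P M : ℕ, M < P ∧ 2 ^ k < P ∧ P ≤ 2 ^ (19 * 2 ^ k) ∧
      ∀ τ : GaussianInt, 0 < τ.re → τ.re ≤ K → |τ.im| ≤ ((2 ^ k / (64 * K * Ac) : ℕ) : ℤ) →
        ∃ p : ℕ, p.Prime ∧ p ∣ P ∧ (p : ℤ) ∣ ((M : GaussianInt) * 1 + τ).norm := by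
  have hKr : (1 : ℝ) ≤ K := by exact_mod_cast hK
  have hAcr : (1 : ℝ) ≤ Ac := by exact_mod_cast hAc
  have hk6 : 6 ≤ k := by omega
  obtain ⟨j, hjk, hj128, hjmany⟩ := hsup k hkk₁
  obtain ⟨Z, hZ⟩ : ∃ Z : ℕ, Z = 2 ^ k / (64 * K * Ac) := ⟨_, rfl⟩
  rw [← hZ]
  obtain ⟨n₂, hn₂⟩ : ∃ n₂ : ℕ,
      n₂ = ⌈(K : ℝ) + 4 * K * Z * ((Ac : ℝ) / ((k : ℝ) + 1))⌉₊ := ⟨_, rfl⟩
  obtain ⟨hneed, hn₂pow⟩ := card_arith K Ac k Z n₂ hZ (Vale.Agent.Helper15.P015.LinearStrip.pow_thresh K k hk6 hkK)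
    (lin_le_two_pow k hk11) hn₂
  have hk1 : (0 : ℝ) < (k : ℝ) + 1 := by positivity
  have hj1 : (0 : ℝ) < (j : ℝ) + 1 := by positivity
  have hmono : (2 : ℝ) ^ k / (8 * ((k : ℝ) + 1)) ≤ ((F2 j).card : ℝ) := by
    rw [div_le_iff₀ (by positivity)]
    have h1 := pow_div_mono k j hjk
    have h2 := mul_le_mul_of_nonneg_right hjmany hk1.le
    have h3 : (2 : ℝ) ^ k * ((j : ℝ) + 1)
        ≤ (((F2 j).card : ℝ) * (8 * ((k : ℝ) + 1))) * ((j : ℝ) + 1) := by linarith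
    exact le_of_mul_le_mul_right h3 hj1
  have hn₂le : n₂ ≤ (F2 j).card := by
    rw [hn₂]
    exact Nat.ceil_le.mpr (hneed.trans hmono)
  obtain ⟨F₂, hF₂sub, hF₂card⟩ := Finset.exists_subset_card_eq hn₂le
  have hn₂1 : 1 ≤ n₂ := by
    rw [hn₂]
    apply Nat.one_le_iff_ne_zero.mpr
    apply (Nat.ceil_pos.mpr _).ne'
    have : (0 : ℝ) ≤ 4 * K * Z * ((Ac : ℝ) / ((k : ℝ) + 1)) := by positivity
    linarith
  have hF2mem : ∀ p ∈ F₂, p.Prime ∧ p % 4 = 1 ∧ 2 ^ j < p ∧ p ≤ 2 ^ (j + 1) := by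
    intro p hp
    have h := hF₂sub hp
    unfold F2 at h
    rw [Finset.mem_filter, Finset.mem_Ico] at h
    exact ⟨h.2.1, h.2.2, by omega, by omega⟩
  have hnorm1 : (1 : GaussianInt).norm = 1 := Zsqrtd.norm_one
  have hndvd : ∀ p : ℕ, p.Prime → ¬ (p : ℤ) ∣ (1 : GaussianInt).norm := by
    intro p hp hdvd
    rw [hnorm1] at hdvd
    have h1 : p ∣ 1 := by exact_mod_cast hdvd
    exact hp.one_lt.ne' (Nat.dvd_one.mp h1)
  have hF₁ : ∀ p ∈ F1 1 k, p.Prime ∧ p % 4 = 1 ∧ ¬ (p : ℤ) ∣ (1 : GaussianInt).norm := by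
    intro p hp
    unfold F1 at hp
    rw [Finset.mem_filter] at hp
    exact ⟨hp.2.1, hp.2.2.1, hndvd p hp.2.1⟩
  have hF₂ : ∀ p ∈ F₂, p.Prime ∧ p % 4 = 1 ∧ ¬ (p : ℤ) ∣ (1 : GaussianInt).norm := by
    intro p hp
    obtain ⟨h1, h2, _, _⟩ := hF2mem p hp
    exact ⟨h1, h2, hndvd p h1⟩
  have h2kj : 2 ^ k ≤ 2 ^ j := Nat.pow_le_pow_right (by norm_num) hjk
  have hdisj : ∀ p ∈ F1 1 k, p ∉ F₂ := by
    intro p h1 h2
    unfold F1 at h1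
    rw [Finset.mem_filter, Finset.mem_range] at h1
    obtain ⟨_, _, h3, _⟩ := hF2mem p h2
    omega
  have hinj : Function.Injective (fun τ : GaussianInt => (X 1 τ, Y 1 τ)) := by
    intro τ τ' hττ
    simp only [Prod.mk.injEq] at hττ
    exact XY_inj 1 one_ne_zero τ τ' hττ.1 hττ.2
  obtain ⟨T, hT⟩ : ∃ T : Finset GaussianInt, T = Finset.preimage
      ((Finset.Ioc (0 : ℤ) K) ×ˢ (Finset.Icc (-(Z : ℤ)) Z))
      (fun τ : GaussianInt => (X 1 τ, Y 1 τ)) hinj.injOn := ⟨_, rfl⟩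
  have hTmem : ∀ τ, τ ∈ T ↔ (0 < τ.re ∧ τ.re ≤ K) ∧ (-(Z : ℤ) ≤ τ.im ∧ τ.im ≤ Z) := by
    intro τ
    rw [hT, Finset.mem_preimage, Finset.mem_product, Finset.mem_Ioc, Finset.mem_Icc, X_one,
      Y_one]
  have hTprop : ∀ τ ∈ T, X 1 τ ∈ Finset.Ioc (0 : ℤ) K ∧ |Y 1 τ| ≤ Z := by
    intro τ hτ
    have h := (hTmem τ).mp hτ
    rw [X_one, Y_one]
    exact ⟨Finset.mem_Ioc.mpr h.1, abs_le.mpr h.2⟩
  have hcard : (Finset.Ioc (0 : ℤ) K).card = K := by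
    rw [Int.card_Ioc]
    simp
  have hcount : ((Finset.Ioc (0 : ℤ) K).card : ℝ)
      + 4 * (Finset.Ioc (0 : ℤ) K).card * Z * ∏ p ∈ F1 1 k, (1 - 2 / (p : ℝ))
      ≤ F₂.card := by
    rw [hcard, hF₂card]
    have h1 : 4 * (K : ℝ) * Z * ∏ p ∈ F1 1 k, (1 - 2 / (p : ℝ))
        ≤ 4 * (K : ℝ) * Z * ((Ac : ℝ) / ((k : ℝ) + 1)) :=
      mul_le_mul_of_nonneg_left (hprod k (by omega)) (by positivity)
    have h2 : (K : ℝ) + 4 * K * Z * ((Ac : ℝ) / ((k : ℝ) + 1)) ≤ (n₂ : ℝ) := by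
      rw [hn₂]
      exact Nat.le_ceil _
    linarith
  obtain ⟨M, hMP, hMkill⟩ := sieve3 1 one_ne_zero (F1 1 k) F₂ hF₁ hF₂ hdisj
    (Finset.Ioc (0 : ℤ) K) Z T hTprop hcount
  obtain ⟨P, hP⟩ : ∃ P : ℕ, P = (∏ p ∈ F1 1 k, p) * (∏ p ∈ F₂, p) := ⟨_, rfl⟩
  rw [← hP] at hMP hMkill
  have hPle : P ≤ 2 ^ (19 * 2 ^ k) := by
    have h1 : ∏ p ∈ F1 1 k, p ≤ 2 ^ (2 * 2 ^ k) := by
      refine (prod_F1_le 1 k).trans (le_of_eq ?_)
      rw [pow_mul]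
      norm_num
    have h2 : ∏ p ∈ F₂, p ≤ 2 ^ (17 * 2 ^ k) := by
      have h3 : ∏ p ∈ F₂, p ≤ (2 ^ (128 * k)) ^ F₂.card := by
        apply prod_le_pow_card'
        intro p hp
        obtain ⟨_, _, _, h4⟩ := hF2mem p hp
        exact h4.trans (Nat.pow_le_pow_right (by norm_num) (by omega))
      rw [hF₂card, ← pow_mul] at h3
      exact h3.trans (Nat.pow_le_pow_right (by norm_num) hn₂pow)
    have h5 : P ≤ 2 ^ (2 * 2 ^ k) * 2 ^ (17 * 2 ^ k) := by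
      rw [hP]
      exact Nat.mul_le_mul h1 h2
    have h6 : 2 ^ (2 * 2 ^ k) * 2 ^ (17 * 2 ^ k) = 2 ^ (19 * 2 ^ k) := by
      rw [← pow_add]
      congr 1
      ring
    rw [h6] at h5
    exact h5
  have hF2ne : F₂.Nonempty := by
    rw [← Finset.card_pos, hF₂card]
    omega
  obtain ⟨p₀, hp₀⟩ := hF2ne
  have hP1pos : 0 < ∏ p ∈ F1 1 k, p :=
    Nat.pos_of_ne_zero (Finset.prod_ne_zero_iff.mpr fun p hp => (hF₁ p hp).1.ne_zero)
  have hP2pos : 0 < ∏ p ∈ F₂, p :=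
    Nat.pos_of_ne_zero (Finset.prod_ne_zero_iff.mpr fun p hp => (hF₂ p hp).1.ne_zero)
  have hPbig : 2 ^ k < P := by
    have h1 : p₀ ≤ ∏ p ∈ F₂, p :=
      Nat.le_of_dvd hP2pos (Finset.dvd_prod_of_mem (fun p => p) hp₀)
    have h2 : ∏ p ∈ F₂, p ≤ P := by
      rw [hP]
      calc ∏ p ∈ F₂, p = 1 * ∏ p ∈ F₂, p := (one_mul _).symm
        _ ≤ (∏ p ∈ F1 1 k, p) * (∏ p ∈ F₂, p) := Nat.mul_le_mul_right _ hP1pos
    obtain ⟨_, _, h3, _⟩ := hF2mem p₀ hp₀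
    omega
  refine ⟨P, M, hMP, hPbig, hPle, ?_⟩
  intro τ h1 h2 h3
  rw [abs_le] at h3
  exact hMkill τ ((hTmem τ).mpr ⟨⟨h1, h2⟩, h3⟩)

/-- A point of the region in the barrier columns lies in the sieved box. -/
theorem barrier_point (K Ac k q P M m : ℕ) (n : ℤ) (Z : ℕ) (α β C : ℝ) (hK : 1 ≤ K)
    (hAc : 1 ≤ Ac) (hα1 : |α| ≤ 1) (hZ : Z = 2 ^ k / (64 * K * Ac))
    (hkB : 128 * K * Ac * ((|C| + K + 2) + 1 + 0) ≤ (2 : ℝ) ^ k)
    (hq16 : 16 ≤ q) (hKq : K ≤ q) (hβq : |β| ≤ q) (hCq : |C| ≤ q)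
    (hlogq : Real.log q ≤ 27 * (2 : ℝ) ^ k) (hPq : P ≤ q) (hMP : M < P) (hm1 : 1 ≤ m)
    (hmq : m ≤ q) (happrox : |α * ((m : ℝ) * P + M) + β - (n : ℝ) * P| ≤ 3 / 2)
    (w : GaussianInt) (hw : w ≠ 0) (hw1 : (m : ℤ) * P + M < w.re)
    (hw2 : w.re ≤ (m : ℤ) * P + M + K)
    (hreg : |(w.im : ℝ) - α * w.re - β|
      ≤ C + (1 / (10368 * K * Ac)) * Real.log ‖(w : ℂ)‖) :
    |w.im - P * n| ≤ (Z : ℤ) := by
  obtain ⟨hc0, hc2⟩ := small_c' K Ac hK hAc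
  obtain ⟨c, hc⟩ : ∃ c : ℝ, c = 1 / (10368 * K * Ac) := ⟨_, rfl⟩
  rw [← hc] at hc0 hc2 hreg
  have hKr : (1 : ℝ) ≤ K := by exact_mod_cast hK
  have hAcr : (1 : ℝ) ≤ Ac := by exact_mod_cast hAc
  have hqr16 : (16 : ℝ) ≤ q := by exact_mod_cast hq16
  have hKqr : (K : ℝ) ≤ q := by exact_mod_cast hKq
  have hqpos : (0 : ℝ) < q := by linarith
  have hPpos : (0 : ℝ) ≤ P := Nat.cast_nonneg P
  have hm1' : (1 : ℤ) ≤ m := by exact_mod_cast hm1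
  have hM0 : (0 : ℤ) ≤ M := Nat.cast_nonneg M
  have hwre0 : (0 : ℤ) < w.re := by
    have h1 : (0 : ℤ) ≤ (m : ℤ) * P := by positivity
    linarith
  have hwre0r : (0 : ℝ) ≤ (w.re : ℝ) := by exact_mod_cast hwre0.le
  have hwreA : (w.re : ℝ) ≤ (q : ℝ) ^ 2 + q + K := by
    have h1 : ((w.re : ℤ) : ℝ) ≤ (((m : ℤ) * P + M + K : ℤ) : ℝ) := by exact_mod_cast hw2
    push_cast at h1
    have hmqr : (m : ℝ) ≤ q := by exact_mod_cast hmq
    have hPqr : (P : ℝ) ≤ q := by exact_mod_cast hPq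
    have hMP' : (M : ℝ) ≤ P := by exact_mod_cast hMP.le
    have h2 : (m : ℝ) * P ≤ q * q := mul_le_mul hmqr hPqr hPpos hqpos.le
    nlinarith
  have hKr0 : (0 : ℝ) ≤ K := by linarith
  have hnorm := log_norm_bound w hw α β c C hα1 hc0.le hc2 ((q : ℝ) ^ 2 + q + K)
    hwre0r hwreA hreg
  have hnorm3 : ‖(w : ℂ)‖ ≤ (q : ℝ) ^ 3 :=
    hnorm.trans (norm_bound_arith q K β C hqr16 hKr0 hKqr hβq hCq)
  have hnw1 : 1 ≤ ‖(w : ℂ)‖ := one_le_norm_of_ne_zero w hw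
  have hlogw : Real.log ‖(w : ℂ)‖ ≤ 81 * (2 : ℝ) ^ k := by
    have h1 := Real.log_le_log (by linarith) hnorm3
    rw [Real.log_pow] at h1
    push_cast at h1
    linarith
  have hcl : c * Real.log ‖(w : ℂ)‖ ≤ (2 : ℝ) ^ k / (128 * K * Ac) := by
    have h1 : c * Real.log ‖(w : ℂ)‖ ≤ c * (81 * (2 : ℝ) ^ k) :=
      mul_le_mul_of_nonneg_left hlogw hc0.le
    have h2 : c * (81 * (2 : ℝ) ^ k) = (2 : ℝ) ^ k / (128 * K * Ac) := by
      rw [hc]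
      field_simp
      ring
    linarith
  have hdx : |α * ((w.re : ℝ) - ((m : ℝ) * P + M))| ≤ K := by
    rw [abs_mul]
    have h1 : |(w.re : ℝ) - ((m : ℝ) * P + M)| ≤ K := by
      have h2 : (((m : ℤ) * P + M : ℤ) : ℝ) < ((w.re : ℤ) : ℝ) := by exact_mod_cast hw1
      have h3 : ((w.re : ℤ) : ℝ) ≤ (((m : ℤ) * P + M + K : ℤ) : ℝ) := by exact_mod_cast hw2
      push_cast at h2 h3
      rw [abs_le]
      constructor <;> linarith
    calc |α| * |(w.re : ℝ) - ((m : ℝ) * P + M)| ≤ 1 * K :=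
          mul_le_mul hα1 h1 (abs_nonneg _) zero_le_one
      _ = K := one_mul _
  have hτimr : |(w.im : ℝ) - P * n| ≤ (|C| + K + 2) + (2 : ℝ) ^ k / (128 * K * Ac) := by
    have h1 : (w.im : ℝ) - P * n
        = ((w.im : ℝ) - α * w.re - β) + α * ((w.re : ℝ) - ((m : ℝ) * P + M))
          + (α * ((m : ℝ) * P + M) + β - (n : ℝ) * P) := by ring
    have h2 := abs_add_le (((w.im : ℝ) - α * w.re - β) + α * ((w.re : ℝ) - ((m : ℝ) * P + M)))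
      (α * ((m : ℝ) * P + M) + β - (n : ℝ) * P)
    have h3 := abs_add_le ((w.im : ℝ) - α * w.re - β) (α * ((w.re : ℝ) - ((m : ℝ) * P + M)))
    rw [← h1] at h2
    have hCabs := le_abs_self C
    linarith
  have hwidth := Vale.Agent.Helper15.P015.LinearStrip.width_arith K Ac k Z (|C| + K + 2) 0 _ hK hAc hZ hkB hτimr
  have : ((|w.im - P * n| : ℤ) : ℝ) ≤ ((Z : ℤ) : ℝ) := by
    push_cast
    linarith
  exact_mod_cast this

/-- Barriers for a line of irrational slope of modulus at most one: beyond any prescribed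
abscissa there are `K` consecutive columns containing no Gaussian prime of the region. -/
theorem barrier_irr (Ac : ℕ) (hAc : 1 ≤ Ac)
    (hprod : ∀ k : ℕ, 1 ≤ k → ∏ p ∈ F1 1 k, (1 - 2 / (p : ℝ)) ≤ (Ac : ℝ) / ((k : ℝ) + 1))
    (k₁ : ℕ) (hsup : ∀ k : ℕ, k₁ ≤ k → ∃ j : ℕ, k ≤ j ∧ j < 128 * k ∧
      (2 : ℝ) ^ j ≤ 8 * ((j : ℝ) + 1) * ((F2 j).card : ℝ))
    (K : ℕ) (hK : 1 ≤ K) (α β C : ℝ) (hα : Irrational α) (hα1 : |α| ≤ 1) (R₀ : ℤ) :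
    ∃ R : ℤ, R₀ ≤ R ∧ ∀ w : GaussianInt, Prime w → R < w.re → w.re ≤ R + K →
      ¬ (|(w.im : ℝ) - α * w.re - β| ≤ C + (1 / (10368 * K * Ac)) * Real.log ‖(w : ℂ)‖) := by
  have hKr : (1 : ℝ) ≤ K := by exact_mod_cast hK
  have hAcr : (1 : ℝ) ≤ Ac := by exact_mod_cast hAc
  obtain ⟨Bq, hBq⟩ : ∃ Bq : ℝ, Bq = 128 * K * Ac * ((|C| + K + 2) + 1 + 0) := ⟨_, rfl⟩
  obtain ⟨k₀, hk₀⟩ : ∃ k₀ : ℕ,
      k₀ = k₁ + 16 + 16 * K + R₀.toNat + ⌈Bq⌉₊ + ⌈|β|⌉₊ + ⌈|C|⌉₊ := ⟨_, rfl⟩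
  obtain ⟨a, q, hqbig, hq1, hcop, happ⟩ := exists_good_approx α hα (2 ^ (19 * 2 ^ (k₀ + 1)))
  obtain ⟨k, hkk₀, hPq, hlogq⟩ := scale_choice k₀ q hqbig
  have hk2 : k ≤ 2 ^ k := (Nat.lt_two_pow_self).le
  have hkq : 2 ^ k ≤ q := by
    have h1 : 2 ^ k ≤ 2 ^ (19 * 2 ^ k) := Nat.pow_le_pow_right (by norm_num) (by omega)
    omega
  have hkB : 128 * K * Ac * ((|C| + K + 2) + 1 + 0) ≤ (2 : ℝ) ^ k := by
    have h1 : Bq ≤ (⌈Bq⌉₊ : ℝ) := Nat.le_ceil _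
    have h2 : (⌈Bq⌉₊ : ℝ) ≤ (k : ℝ) := by exact_mod_cast (by omega : ⌈Bq⌉₊ ≤ k)
    have h3 : (k : ℝ) ≤ (2 : ℝ) ^ k := by exact_mod_cast hk2
    rw [← hBq]
    linarith
  have hβq : |β| ≤ q := by
    have h1 : |β| ≤ (⌈|β|⌉₊ : ℝ) := Nat.le_ceil _
    have h2 : (⌈|β|⌉₊ : ℝ) ≤ (q : ℝ) := by exact_mod_cast (by omega : ⌈|β|⌉₊ ≤ q)
    linarith
  have hCq : |C| ≤ q := by
    have h1 : |C| ≤ (⌈|C|⌉₊ : ℝ) := Nat.le_ceil _
    have h2 : (⌈|C|⌉₊ : ℝ) ≤ (q : ℝ) := by exact_mod_cast (by omega : ⌈|C|⌉₊ ≤ q)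
    linarith
  obtain ⟨P, M, hMP, hPbig, hPle, hkill⟩ := sieve_data Ac hAc hprod k₁ hsup K hK k (by omega)
    (by omega) (by omega)
  have hPq' : P ≤ q := hPle.trans hPq
  have hPpos : (0 : ℝ) < P := by
    have : 0 < P := by omega
    exact_mod_cast this
  have hqpos : (0 : ℝ) < q := by
    have : 0 < q := by omega
    exact_mod_cast this
  obtain ⟨m, hm1, hmq, n, hmn⟩ := inhom α ((α * M + β) / P) a q hq1 hcop happ
  have happrox : |α * ((m : ℝ) * P + M) + β - (n : ℝ) * P| ≤ 3 / 2 := by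
    have h1 : α * ((m : ℝ) * P + M) + β - (n : ℝ) * P
        = P * ((m : ℝ) * α + (α * M + β) / P - n) := by
      field_simp
      ring
    rw [h1, abs_mul, abs_of_pos hPpos]
    have hPqr : (P : ℝ) ≤ q := by exact_mod_cast hPq'
    calc (P : ℝ) * |(m : ℝ) * α + (α * M + β) / P - n|
        ≤ (q : ℝ) * (3 / (2 * (q : ℝ))) := mul_le_mul hPqr hmn (abs_nonneg _) hqpos.le
      _ = 3 / 2 := by
        field_simp
  have hm1' : (1 : ℤ) ≤ m := by exact_mod_cast hm1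
  have hmP : (P : ℤ) ≤ m * P := by
    have h3 : (1 : ℤ) * P ≤ m * P := mul_le_mul_of_nonneg_right hm1' (Nat.cast_nonneg P)
    linarith
  have hM0 : (0 : ℤ) ≤ M := Nat.cast_nonneg M
  refine ⟨(m : ℤ) * P + M, ?_, ?_⟩
  · have h1 : R₀ ≤ (R₀.toNat : ℤ) := Int.self_le_toNat R₀
    have h2 : R₀.toNat ≤ P := by omega
    have h2' : (R₀.toNat : ℤ) ≤ (P : ℤ) := by exact_mod_cast h2
    linarith
  · intro w hw hw1 hw2 hreg
    have hpt := barrier_point K Ac k q P M m n (2 ^ k / (64 * K * Ac)) α β C hK hAc hα1 rfl hkB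
      (by omega) (by omega) hβq hCq hlogq hPq' hMP hm1 hmq happrox w hw.ne_zero hw1 hw2 hreg
    obtain ⟨lam, hlam⟩ : ∃ lam : GaussianInt, lam = ⟨m, n⟩ := ⟨_, rfl⟩
    obtain ⟨τ, hτ⟩ : ∃ τ : GaussianInt, τ = w - (M : GaussianInt) - (P : GaussianInt) * lam :=
      ⟨_, rfl⟩
    have hwτ : w = ((M : GaussianInt) * 1 + τ) + (P : GaussianInt) * lam := by
      rw [hτ]
      ring
    have hτre : τ.re = w.re - M - P * m := by
      rw [hτ, hlam]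
      simp
    have hτim : τ.im = w.im - P * n := by
      rw [hτ, hlam]
      simp
    obtain ⟨p, hpp, hpP, hpd⟩ := hkill τ (by linarith) (by linarith) (by rw [hτim]; exact hpt)
    have hpd' : (p : ℤ) ∣ w.norm := by
      rw [hwτ]
      exact norm_translate _ lam P p hpP hpd
    have hple : p ≤ P := Nat.le_of_dvd (by omega) hpP
    have hlt : (p : ℤ) ^ 2 < w.norm := by
      apply norm_gt_sq
      have h1 : (p : ℤ) ≤ P := by exact_mod_cast hple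
      linarith
    exact not_prime_of_dvd_norm w p hpp hpd' hlt hw

end Vale.Agent.Helper15.P015.Irr
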